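import Vale.Agent.P370.H758.Weight

/-! Scalarity: invariant symmetric bilinear forms on a hydrogenic shell at the coherent functions. -/

namespace Vale.Agent.P370.H758

open MvPolynomial Vale.Agent.P363.H849
open scoped ComplexConjugate

noncomputable section

/-- real and imaginary part of `(x₀ + i x₁)^J` as polynomials -/
def csp : ℕ → Poly × Poly
  | 0 => (1, 0)
  | J + 1 => (X 0 * (csp J).1 - X 1 * (csp J).2, X 0 * (csp J).2 + X 1 * (csp J).1)

theorem ev_csp (J : ℕ) (x : R3) :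
    ev (csp J).1 x = (cw x ^ J).re ∧ ev (csp J).2 x = (cw x ^ J).im := by
  induction J with
  | zero => simp [csp, ev_one, ev_zero]
  | succ J ih =>
    have h : (cw x).re = x 0 := by simp [cw]
    have h' : (cw x).im = x 1 := by simp [cw]
    constructor
    · rw [csp, ev_sub, ev_mul, ev_mul, ev_X, ev_X, ih.1, ih.2, pow_succ, Complex.mul_re, h, h']
      ring
    · rw [csp, ev_add, ev_mul, ev_mul, ev_X, ev_X, ih.1, ih.2, pow_succ, Complex.mul_im, h, h']
      ring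

theorem csp_mem (J : ℕ) : (csp J).1 ∈ Pn (J + 1) ∧ (csp J).2 ∈ Pn (J + 1) := by
  induction J with
  | zero =>
    refine ⟨?_, (Pn _).zero_mem⟩
    show (monomial 0 (1 : ℝ) : Poly) ∈ _
    exact monomial_mem_Pn fun _ => by simp
  | succ J ih =>
    exact ⟨(Pn _).sub_mem (X_mul_mem _ ih.1) (X_mul_mem _ ih.2),
      (Pn _).add_mem (X_mul_mem _ ih.2) (X_mul_mem _ ih.1)⟩

/-- sum over the rotations of order `K = 2 J + 1` -/
theorem filter_mon (J : ℕ) {a b c d : ℕ} (hd : d ≤ J) (h : a + b + c ≤ d) (A : ℕ → R3 ≃ₗᵢ[ℝ] R3)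
    {ω : ℂ} (hω : IsPrimitiveRoot ω (2 * J + 1)) (h1 : ω * conj ω = 1)
    (hA : ∀ j x, cw (A j x) = ω ^ j * cw x ∧ A j x 2 = x 2) (x : R3) :
    ∑ j ∈ Finset.range (2 * J + 1), (conj ω ^ j) ^ J * mon a b c (A j x)
      = if a = J ∧ b = 0 ∧ c = 0 then (2 * J + 1 : ℕ) * cw x ^ J else 0 := by
  have hK : conj ω = ω ^ (2 * J) := by
    have h2 : ω * ω ^ (2 * J) = 1 := by rw [← pow_succ', hω.pow_eq_one]
    have h0 : ω ≠ 0 := by rintro rfl; simp at h1
    exact mul_left_cancel₀ h0 (h1.trans h2.symm)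
  have e : ∀ j, (conj ω ^ j) ^ J * mon a b c (A j x)
      = (ω ^ (2 * J * J + a + 2 * J * b)) ^ j * mon a b c x := by
    intro j
    unfold mon
    rw [(hA j x).1, (hA j x).2, map_mul, map_pow, hK]
    ring
  rw [Finset.sum_congr rfl fun j _ => e j, ← Finset.sum_mul]
  split_ifs with hc
  · obtain ⟨rfl, rfl, rfl⟩ := hc
    have h3 : ω ^ (2 * a * a + a + 2 * a * 0) = 1 := by
      have : 2 * a * a + a + 2 * a * 0 = (2 * a + 1) * a := by ring
      rw [this, pow_mul, hω.pow_eq_one, one_pow]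
    rw [h3]
    simp [mon]
  · have h3 : ω ^ (2 * J * J + a + 2 * J * b) ≠ 1 := by
      intro h4
      have h5 := (hω.pow_eq_one_iff_dvd _).1 h4
      have h6 : 2 * J * J + a + 2 * J * b = (2 * J + 1) * (J + b) + a - (J + b) := by
        have : (2 * J + 1) * (J + b) = 2 * J * J + 2 * J * b + (J + b) := by ring
        omega
      have h7 : J + b - a ≤ 2 * J := by omega
      have h8 : a ≤ J + b := by omega
      have h9 : (2 * J + 1) ∣ (J + b - a) := by
        have h10 : 2 * J * J + a + 2 * J * b + (J + b - a) = (2 * J + 1) * (J + b) := by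
          have : (2 * J + 1) * (J + b) = 2 * J * J + 2 * J * b + (J + b) := by ring
          omega
        exact (Nat.dvd_add_right h5).1 (h10 ▸ Dvd.intro _ rfl)
      have h11 : J + b - a = 0 := Nat.eq_zero_of_dvd_of_lt h9 (by omega)
      exact hc ⟨by omega, by omega, by omega⟩
    have h4 : (ω ^ (2 * J * J + a + 2 * J * b)) ^ (2 * J + 1) = 1 := by
      rw [← pow_mul, mul_comm, pow_mul, hω.pow_eq_one, one_pow]
    have h5 := geom_sum_mul (ω ^ (2 * J * J + a + 2 * J * b)) (2 * J + 1)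
    rw [h4, sub_self] at h5
    rcases mul_eq_zero.1 h5 with h6 | h6
    · rw [h6, zero_mul]
    · exact absurd (sub_eq_zero.1 h6) h3

theorem filter_Mz (J : ℕ) (A : ℕ → R3 ≃ₗᵢ[ℝ] R3)
    {ω : ℂ} (hω : IsPrimitiveRoot ω (2 * J + 1)) (h1 : ω * conj ω = 1)
    (hA : ∀ j x, cw (A j x) = ω ^ j * cw x ∧ A j x 2 = x 2) {F : R3 → ℂ} (hF : F ∈ Mz J) :
    ∃ β : ℂ, ∀ x, ∑ j ∈ Finset.range (2 * J + 1), (conj ω ^ j) ^ J * F (A j x) = β * cw x ^ J := by
  induction hF using Submodule.span_induction with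
  | mem F hF =>
    obtain ⟨a, b, c, h, rfl⟩ := hF
    refine ⟨if a = J ∧ b = 0 ∧ c = 0 then (2 * J + 1 : ℕ) else 0, fun x => ?_⟩
    rw [filter_mon J le_rfl h A hω h1 hA x]
    split_ifs <;> simp
  | zero => exact ⟨0, fun x => by simp⟩
  | add F G _ _ hF hG =>
    obtain ⟨β, hβ⟩ := hF
    obtain ⟨γ, hγ⟩ := hG
    refine ⟨β + γ, fun x => ?_⟩
    simp only [Pi.add_apply, mul_add, Finset.sum_add_distrib, hβ, hγ]
    ring
  | smul a F _ hF =>
    obtain ⟨β, hβ⟩ := hF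
    refine ⟨a * β, fun x => ?_⟩
    have : ∀ j, (conj ω ^ j) ^ J * (a • F) (A j x) = a * ((conj ω ^ j) ^ J * F (A j x)) := by
      intro j; simp only [Pi.smul_apply, smul_eq_mul]; ring
    simp only [this]
    rw [← Finset.mul_sum, hβ]
    ring

theorem filter_Mz_lt (J : ℕ) (A : ℕ → R3 ≃ₗᵢ[ℝ] R3)
    {ω : ℂ} (hω : IsPrimitiveRoot ω (2 * J + 1)) (h1 : ω * conj ω = 1)
    (hA : ∀ j x, cw (A j x) = ω ^ j * cw x ∧ A j x 2 = x 2) {d : ℕ} (hd : d < J) {F : R3 → ℂ}
    (hF : F ∈ Mz d) (x : R3) :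
    ∑ j ∈ Finset.range (2 * J + 1), (conj ω ^ j) ^ J * F (A j x) = 0 := by
  induction hF using Submodule.span_induction with
  | mem F hF =>
    obtain ⟨a, b, c, h, rfl⟩ := hF
    rw [filter_mon J hd.le h A hω h1 hA x, if_neg]
    rintro ⟨h2, -, -⟩
    omega
  | zero => simp
  | add F G _ _ hF hG =>
    simp only [Pi.add_apply, mul_add, Finset.sum_add_distrib, hF, hG, add_zero]
  | smul a F _ hF =>
    have : ∀ j, (conj ω ^ j) ^ J * (a • F) (A j x) = a * ((conj ω ^ j) ^ J * F (A j x)) := by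
      intro j; simp only [Pi.smul_apply, smul_eq_mul]; ring
    simp only [this]
    rw [← Finset.mul_sum, hF, mul_zero]

/-! ### the space of the shell functions -/

/-- the linear map `(p, q) ↦ (p + r q) e^{-κ r}` into functions -/
def wvL (κ : ℝ) : Poly × Poly →ₗ[ℝ] (R3 → ℝ) where
  toFun := wv κ
  map_add' u w := by
    funext x
    simp only [wv, Prod.fst_add, Prod.snd_add, G_add, Pi.add_apply]
    ring
  map_smul' c u := by
    funext x
    simp only [wv, Prod.smul_fst, Prod.smul_snd, G_smul, Pi.smul_apply, RingHom.id_apply,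
      smul_eq_mul]
    ring

/-- the functions `(p + r q) e^{-κ r}` with `deg p < n`, `deg q < n - 1` -/
def Wsp (κ : ℝ) (n : ℕ) : Submodule ℝ (R3 → ℝ) := (Un n).map (wvL κ)

theorem mem_Wsp {κ : ℝ} {n : ℕ} {f : R3 → ℝ} : f ∈ Wsp κ n ↔ ∃ u ∈ Un n, wv κ u = f :=
  Submodule.mem_map

/-- composition with a linear isometry -/
def act (κ : ℝ) (n : ℕ) (A : R3 ≃ₗᵢ[ℝ] R3) : Wsp κ n →ₗ[ℝ] Wsp κ n where
  toFun f := ⟨fun x => f.1 (A x), by
    obtain ⟨u, hu, h⟩ := mem_Wsp.1 f.2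
    refine mem_Wsp.2 ⟨rotP A u, rotP_mem_Un A hu, ?_⟩
    funext x
    rw [wv_rot, h]⟩
  map_add' f g := rfl
  map_smul' c f := rfl

theorem act_apply {κ : ℝ} {n : ℕ} (A : R3 ≃ₗᵢ[ℝ] R3) (f : Wsp κ n) (x : R3) :
    (act κ n A f).1 x = f.1 (A x) := rfl

/-- `Re (c (u·x + i v·x)^J) e^{-κ r}` -/
def ring (κ : ℝ) (J : ℕ) (c : ℂ) (u v : R3) (x : R3) : ℝ :=
  (c * ((inner ℝ u x : ℝ) + (inner ℝ v x : ℝ) * Complex.I) ^ J).re * Real.exp (-κ * ‖x‖)

/-- standard position -/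
def ring0 (κ : ℝ) (J : ℕ) (c : ℂ) (x : R3) : ℝ := (c * cw x ^ J).re * Real.exp (-κ * ‖x‖)

theorem ring0_mem (κ : ℝ) (J : ℕ) (c : ℂ) : ring0 κ J c ∈ Wsp κ (J + 1) := by
  refine mem_Wsp.2 ⟨(c.re • (csp J).1 - c.im • (csp J).2, 0), ⟨?_, (Pn _).zero_mem⟩, ?_⟩
  · exact (Pn _).sub_mem ((Pn _).smul_mem _ (csp_mem J).1) ((Pn _).smul_mem _ (csp_mem J).2)
  · funext x
    simp only [wv, G, ev_sub, ev_smul, ev_zero, (ev_csp J x).1, (ev_csp J x).2, hA, ring0,
      Complex.mul_re]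
    ring

/-- standard ring as an element of the space -/
def r0 (κ : ℝ) (J : ℕ) (c : ℂ) : Wsp κ (J + 1) := ⟨ring0 κ J c, ring0_mem κ J c⟩

theorem r0_eq (κ : ℝ) (J : ℕ) (c : ℂ) : r0 κ J c = c.re • r0 κ J 1 + c.im • r0 κ J Complex.I := by
  apply Subtype.ext
  funext x
  simp only [r0, ring0, Submodule.coe_add, Submodule.coe_smul, Pi.add_apply, Pi.smul_apply,
    smul_eq_mul, Complex.mul_re, Complex.one_re, Complex.one_im, Complex.I_re, Complex.I_im]
  ring

theorem ring_eq_comp (κ : ℝ) (J : ℕ) (c : ℂ) {u v : R3} {A : R3 ≃ₗᵢ[ℝ] R3}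
    (hA : ∀ x, A x 0 = inner ℝ u x ∧ A x 1 = inner ℝ v x) (x : R3) :
    ring κ J c u v x = ring0 κ J c (A x) := by
  simp only [ring, ring0, cw, (hA x).1, (hA x).2, A.norm_map]

theorem ring_mem (κ : ℝ) (J : ℕ) (c : ℂ) {u v : R3} (hu : ‖u‖ = 1) (hv : ‖v‖ = 1)
    (huv : inner ℝ u v = 0) : ring κ J c u v ∈ Wsp κ (J + 1) := by
  obtain ⟨A, hA⟩ := exists_frame u v hu hv huv
  have : ring κ J c u v = (act κ (J + 1) A (r0 κ J c)).1 := by
    funext x
    rw [ring_eq_comp κ J c hA]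
    rfl
  rw [this]
  exact (act κ (J + 1) A (r0 κ J c)).2

/-- The averaging formula: for a symmetric invariant form `B`, `B f (r0 c)` is a multiple of
`B (r0 1) (r0 1) + B (r0 i) (r0 i)`, with a factor depending only on `f` and `c`. -/
theorem form_eq (κ : ℝ) (J : ℕ) (f : Wsp κ (J + 1)) : ∃ β : ℂ, ∀ B : LinearMap.BilinForm ℝ (Wsp κ (J + 1)),
    (∀ f g, B f g = B g f) → (∀ (A : R3 ≃ₗᵢ[ℝ] R3) f g, B (act κ (J + 1) A f) (act κ (J + 1) A g) = B f g) →
    ∀ c : ℂ, B f (r0 κ J c)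
      = (c * β).re * (B (r0 κ J 1) (r0 κ J 1) + B (r0 κ J Complex.I) (r0 κ J Complex.I)) := by
  classical
  set K := 2 * J + 1 with hK
  have hK0 : (K : ℂ) ≠ 0 := by exact_mod_cast (by omega : K ≠ 0)
  have hKr : (K : ℝ) ≠ 0 := by exact_mod_cast (by omega : K ≠ 0)
  obtain ⟨ω, hω⟩ : ∃ ω : ℂ, IsPrimitiveRoot ω K := ⟨_, Complex.isPrimitiveRoot_exp K (by omega)⟩
  have hn : ‖ω‖ = 1 := hω.norm'_eq_one (by omega)
  have h1 : ω * conj ω = 1 := by
    rw [Complex.mul_conj, Complex.normSq_eq_norm_sq, hn]; simp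
  have hr : ∀ j : ℕ, ∃ A : R3 ≃ₗᵢ[ℝ] R3, ∀ x, cw (A x) = ω ^ j * cw x ∧ A x 2 = x 2 := fun j =>
    exists_rotz _ (by rw [norm_pow, hn, one_pow])
  choose A hA using hr
  obtain ⟨u, hu, huf⟩ := mem_Wsp.1 f.2
  obtain ⟨p, q⟩ := u
  have hp : p ∈ Pn (J + 1) := hu.1
  have hq : q ∈ Pn J := hu.2
  -- the filter
  obtain ⟨β, hβ⟩ : ∃ β : ℂ, ∀ x, ∑ j ∈ Finset.range K, (conj ω ^ j) ^ J * ((f.1 (A j x) : ℝ) : ℂ)
      = β * cw x ^ J * Real.exp (-κ * ‖x‖) := by
    obtain ⟨β, hβ⟩ := filter_Mz J A hω h1 hA (ev_mem_Mz hp)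
    have hq0 : ∀ x, ∑ j ∈ Finset.range K, (conj ω ^ j) ^ J * ((ev q (A j x) : ℝ) : ℂ) = 0 := by
      intro x
      rcases Nat.eq_zero_or_pos J with hJ | hJ
      · subst hJ
        rw [Pn_zero, Submodule.mem_bot] at hq
        subst hq
        simp [ev_zero]
      · obtain ⟨J', rfl⟩ : ∃ J', J = J' + 1 := ⟨J - 1, by omega⟩
        exact filter_Mz_lt (J' + 1) A hω h1 hA (Nat.lt_succ_self J') (ev_mem_Mz hq) x
    refine ⟨β, fun x => ?_⟩
    have e : ∀ j, (conj ω ^ j) ^ J * ((f.1 (A j x) : ℝ) : ℂ)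
        = ((conj ω ^ j) ^ J * ((ev p (A j x) : ℝ) : ℂ)) * (Real.exp (-κ * ‖x‖) : ℂ)
          + ((conj ω ^ j) ^ J * ((ev q (A j x) : ℝ) : ℂ)) * ((‖x‖ * Real.exp (-κ * ‖x‖) : ℝ) : ℂ) := by
      intro j
      rw [← huf]
      simp only [wv, G, hA, hB, (A j).norm_map, Vale.Agent.P363.H849.hA]
      push_cast
      ring
    rw [Finset.sum_congr rfl fun j _ => e j, Finset.sum_add_distrib, ← Finset.sum_mul,
      ← Finset.sum_mul, hβ, hq0, zero_mul, add_zero]
  refine ⟨conj β / K, fun B hs hinv c => ?_⟩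
  -- the two averages
  have hact : ∀ (j : ℕ) (c : ℂ), act κ (J + 1) (A j) (r0 κ J c) = r0 κ J (c * (ω ^ j) ^ J) := by
    intro j c
    apply Subtype.ext
    funext x
    show ring0 κ J c (A j x) = ring0 κ J (c * (ω ^ j) ^ J) x
    simp only [ring0, (hA j x).1, (A j).norm_map, mul_pow]
    ring_nf
  have hav : ∀ c : ℂ, (K : ℝ) * B f (r0 κ J c)
      = ∑ j ∈ Finset.range K, B (act κ (J + 1) (A j) f) (r0 κ J (c * (ω ^ j) ^ J)) := by
    intro c
    have : ∀ j, B (act κ (J + 1) (A j) f) (r0 κ J (c * (ω ^ j) ^ J)) = B f (r0 κ J c) := by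
      intro j; rw [← hact, hinv]
    simp only [this]
    simp
  set Fc : Wsp κ (J + 1) := ∑ j ∈ Finset.range K, ((ω ^ j) ^ J).re • act κ (J + 1) (A j) f with hFc
  set Fs : Wsp κ (J + 1) := ∑ j ∈ Finset.range K, ((ω ^ j) ^ J).im • act κ (J + 1) (A j) f with hFs
  have hval : ∀ x, ((Fc.1 x : ℝ) : ℂ) - (Fs.1 x : ℝ) * Complex.I = β * cw x ^ J * Real.exp (-κ * ‖x‖) := by
    intro x
    rw [← hβ x, hFc, hFs]
    simp only [Submodule.coe_sum, Submodule.coe_smul, Finset.sum_apply, Pi.smul_apply, smul_eq_mul,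
      act_apply, Complex.ofReal_sum, Finset.sum_mul, ← Finset.sum_sub_distrib]
    refine Finset.sum_congr rfl fun j _ => ?_
    have e : (conj ω ^ j) ^ J = (((ω ^ j) ^ J).re : ℂ) - (((ω ^ j) ^ J).im : ℂ) * Complex.I := by
      rw [← map_pow, ← map_pow]
      generalize (ω ^ j) ^ J = z
      apply Complex.ext <;> simp
    rw [e]
    push_cast
    ring
  have hFc' : Fc = r0 κ J β := by
    apply Subtype.ext
    funext x
    have := congrArg Complex.re (hval x)
    simp only [Complex.sub_re, Complex.ofReal_re, Complex.mul_re, Complex.ofReal_im, Complex.I_re,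
      Complex.I_im, mul_zero, zero_mul, sub_zero, mul_one] at this
    show Fc.1 x = ring0 κ J β x
    rw [ring0, Complex.mul_re]
    linarith
  have hFs' : Fs = r0 κ J (Complex.I * β) := by
    apply Subtype.ext
    funext x
    have := congrArg Complex.im (hval x)
    simp only [Complex.sub_im, Complex.ofReal_re, Complex.mul_im, Complex.ofReal_im, Complex.I_re,
      Complex.I_im, mul_zero, zero_mul, mul_one, zero_add, add_zero, zero_sub] at this
    show Fs.1 x = ring0 κ J (Complex.I * β) x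
    rw [ring0]
    have e : (Complex.I * β * cw x ^ J).re = -(β * cw x ^ J).im := by
      rw [mul_assoc]; simp
    rw [e, Complex.mul_im]
    linarith
  have hmain : (K : ℝ) * B f (r0 κ J c)
      = (c * conj β).re * (B (r0 κ J 1) (r0 κ J 1) + B (r0 κ J Complex.I) (r0 κ J Complex.I)) := by
    rw [hav c]
    have e : ∀ j, B (act κ (J + 1) (A j) f) (r0 κ J (c * (ω ^ j) ^ J))
        = ((ω ^ j) ^ J).re * B (act κ (J + 1) (A j) f) (r0 κ J c)
          + ((ω ^ j) ^ J).im * B (act κ (J + 1) (A j) f) (r0 κ J (c * Complex.I)) := by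
      intro j
      have : r0 κ J (c * (ω ^ j) ^ J) = ((ω ^ j) ^ J).re • r0 κ J c
          + ((ω ^ j) ^ J).im • r0 κ J (c * Complex.I) := by
        apply Subtype.ext
        funext x
        simp only [r0, ring0, Submodule.coe_add, Submodule.coe_smul, Pi.add_apply, Pi.smul_apply,
          smul_eq_mul, Complex.mul_re, Complex.mul_im, Complex.I_re, Complex.I_im]
        ring
      rw [this, map_add, map_smul, map_smul, smul_eq_mul, smul_eq_mul]
    rw [Finset.sum_congr rfl fun j _ => e j, Finset.sum_add_distrib]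
    have e1 : ∑ j ∈ Finset.range K, ((ω ^ j) ^ J).re * B (act κ (J + 1) (A j) f) (r0 κ J c)
        = B Fc (r0 κ J c) := by
      rw [hFc, map_sum, LinearMap.sum_apply]
      refine Finset.sum_congr rfl fun j _ => ?_
      rw [map_smul, LinearMap.smul_apply, smul_eq_mul]
    have e2 : ∑ j ∈ Finset.range K, ((ω ^ j) ^ J).im * B (act κ (J + 1) (A j) f) (r0 κ J (c * Complex.I))
        = B Fs (r0 κ J (c * Complex.I)) := by
      rw [hFs, map_sum, LinearMap.sum_apply]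
      refine Finset.sum_congr rfl fun j _ => ?_
      rw [map_smul, LinearMap.smul_apply, smul_eq_mul]
    rw [e1, e2, hFc', hFs', r0_eq κ J β, r0_eq κ J c, r0_eq κ J (Complex.I * β),
      r0_eq κ J (c * Complex.I)]
    simp only [map_add, map_smul, LinearMap.add_apply, LinearMap.smul_apply, smul_eq_mul]
    rw [hs (r0 κ J Complex.I) (r0 κ J 1)]
    simp only [Complex.mul_re, Complex.mul_im, Complex.I_re, Complex.I_im, Complex.conj_re,
      Complex.conj_im]
    ring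
  have e3 : (c * (conj β / K)).re = (c * conj β).re / K := by
    rw [← mul_div_assoc]
    rw [show ((K : ℕ) : ℂ) = ((K : ℝ) : ℂ) by push_cast; rfl, Complex.div_ofReal_re]
  rw [e3]
  field_simp
  linarith

/-- **Scalarity.** Two symmetric forms on the shell functions of degree at most `J`, invariant under
linear isometries, are proportional when one argument is a coherent function. -/
theorem scalarity (κ : ℝ) (J : ℕ) (B I : LinearMap.BilinForm ℝ (Wsp κ (J + 1)))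
    (hBs : ∀ f g, B f g = B g f) (hIs : ∀ f g, I f g = I g f)
    (hB : ∀ (A : R3 ≃ₗᵢ[ℝ] R3) f g, B (act κ (J + 1) A f) (act κ (J + 1) A g) = B f g)
    (hI : ∀ (A : R3 ≃ₗᵢ[ℝ] R3) f g, I (act κ (J + 1) A f) (act κ (J + 1) A g) = I f g)
    (hI0 : I (r0 κ J 1) (r0 κ J 1) + I (r0 κ J Complex.I) (r0 κ J Complex.I) ≠ 0)
    (c : ℂ) {u v : R3} (hu : ‖u‖ = 1) (hv : ‖v‖ = 1) (huv : inner ℝ u v = 0)
    (f : Wsp κ (J + 1)) :
    B f ⟨ring κ J c u v, ring_mem κ J c hu hv huv⟩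
      = (B (r0 κ J 1) (r0 κ J 1) + B (r0 κ J Complex.I) (r0 κ J Complex.I))
        / (I (r0 κ J 1) (r0 κ J 1) + I (r0 κ J Complex.I) (r0 κ J Complex.I))
        * I f ⟨ring κ J c u v, ring_mem κ J c hu hv huv⟩ := by
  obtain ⟨A, hA⟩ := exists_frame u v hu hv huv
  have e : (⟨ring κ J c u v, ring_mem κ J c hu hv huv⟩ : Wsp κ (J + 1)) = act κ (J + 1) A (r0 κ J c) := by
    apply Subtype.ext
    funext x
    exact ring_eq_comp κ J c hA x
  have e2 : f = act κ (J + 1) A (act κ (J + 1) A.symm f) := by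
    apply Subtype.ext
    funext x
    rw [act_apply, act_apply, A.symm_apply_apply]
  rw [e]
  conv_lhs => rw [e2]
  conv_rhs => rw [e2]
  rw [hB, hI]
  obtain ⟨β, hβ⟩ := form_eq κ J (act κ (J + 1) A.symm f)
  rw [hβ B hBs hB, hβ I hIs hI]
  field_simp

end

end Vale.Agent.P370.H758
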