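import Vale.Agent.P370.H758.Mean

/-! Kernel form of the core mean field and of its scalar; the top multiplet. -/

namespace Vale.Agent.P370.H758

open MeasureTheory Module Vale.Agent.P363.H849 Vale.Agent.P370.H624
open Vale.Agent.P363.R.H10 (DD Nice DD_comm DD_eq_prod)
open scoped ComplexConjugate

noncomputable section

variable {n : ℕ} {ι : Type*} [Fintype ι] [DecidableEq ι]

/-- one-particle density matrix (one spin) of the closed shells -/
def kerS (S : Filled n ι) (x y : R3) : ℝ := ∑ k, S.orb k x * S.orb k y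

theorem core_kernel (S : Filled n ι) {f g : R3 → ℝ} (hf : EB f) (hg : EB g) :
    core S f g = 2 * DD (fun x => f x * g x) (fun y => kerS S y y)
      - ∫ p : R3 × R3, kerS S p.1 p.2 * (f p.1 * g p.2) / ‖p.1 - p.2‖ ∂(volume.prod volume) := by
  unfold core
  rw [Finset.sum_sub_distrib, ← Finset.mul_sum]
  congr 1
  · congr 1
    unfold kerS
    rw [DD_sum_right _ (fun k => (EB_orb S k).mul (EB_orb S k)) (hf.mul hg)]
  · have h1 : ∀ k, DD (fun x => f x * S.orb k x) (fun y => g y * S.orb k y)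
        = ∫ p : R3 × R3, (f p.1 * S.orb k p.1) * (g p.2 * S.orb k p.2) / ‖p.1 - p.2‖
          ∂(volume.prod volume) := fun k =>
      DD_eq_prod (hf.mul (EB_orb S k)).nice (hg.mul (EB_orb S k)).nice
    rw [Finset.sum_congr rfl fun k _ => h1 k]
    rw [← integral_finsetSum _ fun k _ =>
      (hf.mul (EB_orb S k)).nice.integrable_DD (hg.mul (EB_orb S k)).nice]
    congr 1
    funext p
    unfold kerS
    rw [Finset.sum_mul, Finset.sum_div]
    exact Finset.sum_congr rfl fun k _ => by ring

theorem ker_integrable (S : Filled n ι) {f g : R3 → ℝ} (hf : EB f) (hg : EB g) :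
    Integrable (fun p : R3 × R3 => kerS S p.1 p.2 * (f p.1 * g p.2) / ‖p.1 - p.2‖)
      (volume.prod volume) := by
  have := integrable_finsetSum Finset.univ fun k _ =>
      (hf.mul (EB_orb S k)).nice.integrable_DD (hg.mul (EB_orb S k)).nice
  refine this.congr (ae_of_all _ fun p => ?_)
  simp only [kerS]
  rw [Finset.sum_mul, Finset.sum_div]
  exact Finset.sum_congr rfl fun k _ => by ring

/-- the numerator of the scalar, in kernel form: with `C + i S = (x₀ + i x₁)^J e^{-κ r}`,
`core C C + core S S = 2 ∫∫ |x₀+ix₁|^{2J} e^{-2κ|x|} ρ(y)/|x-y| - ∫∫ K(x,y) Re[...]/|x-y|` -/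
theorem coreF_eq (S : Filled n ι) {κ : ℝ} (hκ : 0 < κ) (J : ℕ) :
    coreF S κ J = (2 * DD (fun x => ‖cw x‖ ^ (2 * J) * Real.exp (-κ * ‖x‖) ^ 2)
        (fun y => kerS S y y)
      - ∫ p : R3 × R3, kerS S p.1 p.2 * ((cw p.1 ^ J * conj (cw p.2 ^ J)).re
          * (Real.exp (-κ * ‖p.1‖) * Real.exp (-κ * ‖p.2‖))) / ‖p.1 - p.2‖ ∂(volume.prod volume))
        / nrm0 κ J := by
  have h1 := EB_Wsp hκ (ring0_mem κ J 1)
  have h2 := EB_Wsp hκ (ring0_mem κ J Complex.I)
  unfold coreF
  congr 1
  rw [core_kernel S h1 h1, core_kernel S h2 h2]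
  have e1 : DD (fun x => ‖cw x‖ ^ (2 * J) * Real.exp (-κ * ‖x‖) ^ 2) (fun y => kerS S y y)
      = DD (fun x => ring0 κ J 1 x * ring0 κ J 1 x) (fun y => kerS S y y)
        + DD (fun x => ring0 κ J Complex.I x * ring0 κ J Complex.I x) (fun y => kerS S y y) := by
    have hk : EB (fun y => kerS S y y) := EB_sum _ fun k => (EB_orb S k).mul (EB_orb S k)
    rw [← Vale.Agent.P363.R.H10.DD_add_left (h1.mul h1).nice (h2.mul h2).nice hk.nice]
    congr 1
    funext x
    exact (ring0_sq κ J x).symm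
  have e2 : (∫ p : R3 × R3, kerS S p.1 p.2 * ((cw p.1 ^ J * conj (cw p.2 ^ J)).re
          * (Real.exp (-κ * ‖p.1‖) * Real.exp (-κ * ‖p.2‖))) / ‖p.1 - p.2‖ ∂(volume.prod volume))
      = (∫ p : R3 × R3, kerS S p.1 p.2 * (ring0 κ J 1 p.1 * ring0 κ J 1 p.2) / ‖p.1 - p.2‖
          ∂(volume.prod volume))
        + ∫ p : R3 × R3, kerS S p.1 p.2 * (ring0 κ J Complex.I p.1 * ring0 κ J Complex.I p.2)
          / ‖p.1 - p.2‖ ∂(volume.prod volume) := by
    rw [← integral_add (ker_integrable S h1 h1) (ker_integrable S h2 h2)]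
    congr 1
    funext p
    simp only [ring0, one_mul, Complex.mul_re, Complex.I_re, Complex.I_im, zero_mul, zero_sub,
      Complex.conj_re, Complex.conj_im]
    ring
  rw [e1, e2]
  ring

/-! ### the top multiplet -/

/-- the multiplet `l = j` of the shell `j`: the span of the coherent functions
`Re (c (u·x + i v·x)^j) e^{-r/(j+1)}`, `u, v` orthonormal -/
def Top (j : ℕ) : Submodule ℝ H1 :=
  Submodule.span ℝ {w | w ∈ Shell j ∧ ∃ (c : ℂ) (u v : R3), ‖u‖ = 1 ∧ ‖v‖ = 1 ∧ inner ℝ u v = 0 ∧
    w.1.1 = ring (sk j) j c u v}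

theorem Top_le (j : ℕ) : Top j ≤ Shell j :=
  Submodule.span_le.2 fun _ hw => hw.1

/-- **the core mean field is a scalar on the top multiplet and does not couple it to the rest of the
shell** -/
theorem core_top (S : Filled n ι) {J : ℕ} {w g : H1} (hw : w ∈ Shell J) (hg : g ∈ Top J) :
    core S w.1.1 g.1.1 = coreF S (sk J) J * ip w g := by
  have hEw := EB_shell hw
  have key : g ∈ Shell J ∧ core S w.1.1 g.1.1 = coreF S (sk J) J * ip w g := by
    induction hg using Submodule.span_induction with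
    | mem g hg =>
      obtain ⟨hg, c, u, v, hu, hv, huv, h⟩ := hg
      refine ⟨hg, ?_⟩
      rw [ip_apply, h]
      exact core_scalar S (sk_pos J) J (shell_mem_Wsp hw) c hu hv huv
    | zero =>
      refine ⟨Submodule.zero_mem _, ?_⟩
      rw [map_zero, mul_zero, core_symm S hEw (EB_shell (Submodule.zero_mem (Shell J)))]
      have := core_smul_left S 0 (0 : R3 → ℝ) w.1.1
      simp only [zero_mul] at this
      exact this
    | add g g' _ _ h h' =>
      refine ⟨Submodule.add_mem _ h.1 h'.1, ?_⟩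
      rw [map_add, mul_add, ← h.2, ← h'.2,
        core_symm S hEw (EB_shell (Submodule.add_mem _ h.1 h'.1)),
        core_symm S hEw (EB_shell h.1), core_symm S hEw (EB_shell h'.1)]
      exact core_add_left S (EB_shell h.1) (EB_shell h'.1) hEw
    | smul a g _ h =>
      refine ⟨Submodule.smul_mem _ a h.1, ?_⟩
      rw [map_smul, smul_eq_mul, mul_left_comm, ← h.2,
        core_symm S hEw (EB_shell (Submodule.smul_mem _ a h.1)),
        core_symm S hEw (EB_shell h.1)]
      exact core_smul_left S a g.1.1 w.1.1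
  exact key.2

end

end Vale.Agent.P370.H758
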