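import Vale.Agent.P370.H758.Kernel
import Vale.Agent.P370.H617.Moments

/-! Bounds of the core mean field. -/

namespace Vale.Agent.P370.H758

open MeasureTheory Module Vale.Agent.P363.H849 Vale.Agent.P370.H624
open Vale.Agent.P363.R.H10 (DD Nice DD_comm DD_eq_prod DD_mul_left DD_mul_right)

noncomputable section

/-- `|(fφ|fφ)| ≤ (f²|φ²)` -/
theorem exch_le {f φ : R3 → ℝ} (hf : EB f) (hφ : EB φ) :
    |DD (fun x => f x * φ x) (fun y => f y * φ y)|
      ≤ DD (fun x => f x * f x) (fun y => φ y * φ y) := by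
  have h1 := (hf.mul hφ).nice
  have h2 := (hf.mul hf).nice
  have h3 := (hφ.mul hφ).nice
  have e : DD (fun x => f x * f x) (fun y => φ y * φ y)
      = 1 / 2 * (DD (fun x => f x * f x) (fun y => φ y * φ y)
        + DD (fun x => φ x * φ x) (fun y => f y * f y)) := by
    rw [DD_comm h3 h2]; ring
  rw [e, DD_eq_prod h1 h1, DD_eq_prod h2 h3, DD_eq_prod h3 h2,
    ← integral_add (h2.integrable_DD h3) (h3.integrable_DD h2), ← integral_const_mul]
  refine (abs_integral_le_integral_abs).trans ?_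
  refine integral_mono (h1.integrable_DD h1).abs
    (((h2.integrable_DD h3).add (h3.integrable_DD h2)).const_mul _) fun p => ?_
  rw [abs_div, abs_of_nonneg (norm_nonneg (p.1 - p.2))]
  rw [← add_div, mul_div_assoc']
  gcongr
  rw [abs_le]
  constructor <;> nlinarith [sq_nonneg (f p.1 * φ p.2 + f p.2 * φ p.1),
    sq_nonneg (f p.1 * φ p.2 - f p.2 * φ p.1)]

/-- potential of a normalised shell orbital -/
theorem shell_pot_le {j : ℕ} {w : H1} (hw : w ∈ Shell j) (a : R3) :
    Integrable (fun x => w.1.1 x * w.1.1 x / ‖a - x‖) ∧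
      ∫ x, w.1.1 x * w.1.1 x / ‖a - x‖ ≤ 2 * ip w w := by
  obtain ⟨h1, h2⟩ := Vale.Agent.P363.R.Sob.coulomb_le (μ := (volume : Measure R3))
    (ContinuousLinearMap.id ℝ R3) a e3 (fun k => rfl) (m1 w) (m2 w) (mW w)
  have e : (fun x => w.1.1 x * w.1.1 x / ‖a - x‖)
      = fun x => ‖w.1.1 x‖ ^ 2 / ‖ContinuousLinearMap.id ℝ R3 x - a‖ := by
    funext x
    rw [Real.norm_eq_abs, sq_abs, sq, norm_sub_rev]; rfl
  rw [e]
  refine ⟨h1, (h2 1 one_pos).trans ?_⟩
  have e1 : (∑ k, ∫ x, ‖w.1.2 k x‖ ^ 2) = dir w w := by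
    rw [dir_apply]
    refine Finset.sum_congr rfl fun k _ => ?_
    congr 1; funext x
    rw [Real.norm_eq_abs, sq_abs, sq]
  have e2 : (∫ x, ‖w.1.1 x‖ ^ 2) = ip w w := by
    rw [ip_apply]
    congr 1; funext x
    rw [Real.norm_eq_abs, sq_abs, sq]
  rw [e1, e2, (H617.shell_virial j hw hw).2]
  have h3 : 0 ≤ ip w w := ip_nonneg w
  have h4 : ip w w / ((j : ℝ) + 1) ^ 2 ≤ ip w w := by
    apply div_le_self h3
    have : (0 : ℝ) ≤ j := Nat.cast_nonneg j
    nlinarith
  linarith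

theorem DD_shell_le {j : ℕ} {w : H1} (hw : w ∈ Shell j) {q : R3 → ℝ} (hq : EB q)
    (h0 : ∀ x, 0 ≤ q x) :
    0 ≤ DD q (fun y => w.1.1 y * w.1.1 y) ∧
      DD q (fun y => w.1.1 y * w.1.1 y) ≤ 2 * ip w w * ∫ x, q x := by
  constructor
  · refine integral_nonneg fun x => integral_nonneg fun y => ?_
    exact div_nonneg (mul_nonneg (h0 x) (mul_self_nonneg _)) (norm_nonneg _)
  · have hE := EB_shell hw
    have h1 := (hq.nice.integrable_DD (hE.mul hE).nice).integral_prod_left
    rw [← integral_const_mul]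
    refine integral_mono h1 (hq.integrable.const_mul _) fun x => ?_
    have h2 : (fun y => q x * (w.1.1 y * w.1.1 y) / ‖x - y‖)
        = fun y => q x * (w.1.1 y * w.1.1 y / ‖x - y‖) := by
      funext y; rw [mul_div_assoc]
    simp only [h2]
    rw [integral_const_mul, mul_comm (2 * ip w w)]
    exact mul_le_mul_of_nonneg_left (shell_pot_le hw x).2 (h0 x)

variable {n : ℕ} {ι : Type*} [Fintype ι] [DecidableEq ι]

theorem core_nonneg (S : Filled n ι) {f : R3 → ℝ} (hf : EB f) : 0 ≤ core S f f := by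
  refine Finset.sum_nonneg fun k _ => ?_
  have h1 := exch_le hf (EB_orb S k)
  have h2 := (DD_shell_le (S.mem k) (hf.mul hf) fun x => mul_self_nonneg _).1
  have h3 := (abs_le.1 h1).2
  have h4 : 0 ≤ DD (fun x => f x * f x) (fun y => S.orb k y * S.orb k y) := h2
  linarith

theorem core_le (S : Filled n ι) {f : R3 → ℝ} (hf : EB f) :
    core S f f ≤ 6 * Fintype.card ι * ∫ x, f x * f x := by
  have h : ∀ k ∈ Finset.univ, (2 * DD (fun x => f x * f x) (fun y => S.orb k y * S.orb k y)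
    - DD (fun x => f x * S.orb k x) (fun y => f y * S.orb k y)) ≤ 6 * ∫ x, f x * f x := by
    intro k _
    have h1 := (abs_le.1 (exch_le hf (EB_orb S k))).1
    have h2 := (DD_shell_le (S.mem k) (hf.mul hf) fun x => mul_self_nonneg _).2
    rw [S.on, if_pos rfl] at h2
    have h4 : DD (fun x => f x * f x) (fun y => S.orb k y * S.orb k y)
      ≤ 2 * 1 * ∫ x, f x * f x := h2
    linarith
  refine (Finset.sum_le_sum h).trans (le_of_eq ?_)
  rw [Finset.sum_const, Finset.card_univ, nsmul_eq_mul]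
  ring

theorem coreF_bounds (S : Filled n ι) {κ : ℝ} (hκ : 0 < κ) (J : ℕ) :
    0 ≤ coreF S κ J ∧ coreF S κ J ≤ 6 * Fintype.card ι := by
  have h1 := EB_Wsp hκ (ring0_mem κ J 1)
  have h2 := EB_Wsp hκ (ring0_mem κ J Complex.I)
  have hp := nrm0_pos hκ J
  unfold coreF
  constructor
  · exact div_nonneg (add_nonneg (core_nonneg S h1) (core_nonneg S h2)) hp.le
  · rw [div_le_iff₀ hp, ← nrm0_eq hκ J]
    have h3 := core_le S h1
    have h4 := core_le S h2
    linarith

end

end Vale.Agent.P370.H758
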