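import Vale.Agent.P370.H758.Bound

/-! The coherent functions belong to the top multiplet of helper617; the background `r²` is the
scalar `s_J` on them and does not couple them to the rest of the shell. -/

namespace Vale.Agent.P370.H758

open MeasureTheory Module MvPolynomial Vale.Agent.P363.H849 Vale.Agent.P370.H624
open Vale.Agent.P370.H617 (lap_mul eul_mul lap_sub eul_sub r2 r2_top pderiv_comm')

noncomputable section

theorem eul_X (i : Fin 3) : eul (X i : Poly) = X i := by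
  unfold eul
  rw [Finset.sum_eq_single i]
  · rw [pderiv_X_self, mul_one]
  · intro b _ hb
    rw [pderiv_X_of_ne (Ne.symm hb), mul_zero]
  · simp

theorem lap_X (i : Fin 3) : lap (X i : Poly) = 0 := by
  unfold lap
  refine Finset.sum_eq_zero fun k _ => ?_
  by_cases h : i = k
  · subst h; rw [pderiv_X_self]; simp
  · rw [pderiv_X_of_ne h]; simp

theorem grad_X (i : Fin 3) (q : Poly) : ∑ k, pderiv k (X i : Poly) * pderiv k q = pderiv i q := by
  rw [Finset.sum_eq_single i]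
  · rw [pderiv_X_self, one_mul]
  · intro b _ hb
    rw [pderiv_X_of_ne (Ne.symm hb), zero_mul]
  · simp

theorem lap_X_mul (i : Fin 3) (q : Poly) : lap (X i * q) = X i * lap q + 2 * pderiv i q := by
  rw [lap_mul, lap_X, grad_X i q]
  ring

theorem eul_X_mul (i : Fin 3) (q : Poly) : eul (X i * q) = X i * q + X i * eul q := by
  rw [eul_mul, eul_X]

/-- Cauchy-Riemann equations, harmonicity and homogeneity of `(x₀ + i x₁)^J` -/
theorem csp_props (J : ℕ) :
    (pderiv 0 (csp J).1 = pderiv 1 (csp J).2 ∧ pderiv 1 (csp J).1 = - pderiv 0 (csp J).2) ∧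
    (lap (csp J).1 = 0 ∧ lap (csp J).2 = 0) ∧
    (eul (csp J).1 = (J : ℝ) • (csp J).1 ∧ eul (csp J).2 = (J : ℝ) • (csp J).2) := by
  induction J with
  | zero =>
    refine ⟨⟨?_, ?_⟩, ⟨?_, ?_⟩, ?_, ?_⟩ <;> simp [csp, lap, eul]
  | succ J ih =>
    obtain ⟨⟨c1, c2⟩, ⟨l1, l2⟩, e1, e2⟩ := ih
    have d00 : pderiv (0 : Fin 3) (X 0 : Poly) = 1 := pderiv_X_self _
    have d11 : pderiv (1 : Fin 3) (X 1 : Poly) = 1 := pderiv_X_self _
    have d01 : pderiv (0 : Fin 3) (X 1 : Poly) = 0 := pderiv_X_of_ne (by decide)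
    have d10 : pderiv (1 : Fin 3) (X 0 : Poly) = 0 := pderiv_X_of_ne (by decide)
    refine ⟨⟨?_, ?_⟩, ⟨?_, ?_⟩, ?_, ?_⟩
    · simp only [csp, map_sub, map_add, Derivation.leibniz, smul_eq_mul, d00, d11, d01, d10, c1, c2]
      ring
    · simp only [csp, map_sub, map_add, Derivation.leibniz, smul_eq_mul, d00, d11, d01, d10, c1, c2]
      ring
    · simp only [csp, lap_sub, lap_X_mul, l1, l2, c1]
      ring
    · simp only [csp, lap_add, lap_X_mul, l1, l2, c2]
      ring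
    · simp only [csp, eul_sub, eul_X_mul, e1, e2]
      push_cast
      simp only [mul_smul_comm]
      module
    · simp only [csp, eul_add, eul_X_mul, e1, e2]
      push_cast
      simp only [mul_smul_comm]
      module

/-- the pair of the coherent function in standard position -/
def rpair (J : ℕ) (c : ℂ) : Poly × Poly := (c.re • (csp J).1 - c.im • (csp J).2, 0)

theorem rpair_top (J : ℕ) (c : ℂ) : rpair J c ∈ H617.Top (J + 1) := by
  obtain ⟨-, ⟨l1, l2⟩, e1, e2⟩ := csp_props J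
  refine ⟨rfl, ?_, ?_⟩
  · simp only [rpair, eul_sub, eul_smul, e1, e2]
    push_cast
    module
  · simp only [rpair, lap_sub, lap_smul, l1, l2]
    simp

theorem rotP_top (A : R3 ≃ₗᵢ[ℝ] R3) {n : ℕ} {u : Poly × Poly} (hu : u ∈ H617.Top n) :
    rotP A u ∈ H617.Top n := by
  obtain ⟨h1, h2, h3⟩ := hu
  refine ⟨?_, ?_, ?_⟩
  · simp only [rotP, h1, map_zero]
  · simp only [rotP, eul_rot, h2, map_smul]
  · simp only [rotP, lap_rot, h3, map_zero]

theorem wv_rpair (κ : ℝ) (J : ℕ) (c : ℂ) (x : R3) : wv κ (rpair J c) x = ring0 κ J c x := by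
  simp only [rpair, wv, G, ev_sub, ev_smul, ev_zero, (ev_csp J x).1, (ev_csp J x).2, hA, ring0,
    Complex.mul_re]
  ring

/-- every coherent function comes from a pair in the top multiplet -/
theorem ring_top (κ : ℝ) (J : ℕ) (c : ℂ) {u v : R3} (hu : ‖u‖ = 1) (hv : ‖v‖ = 1)
    (huv : inner ℝ u v = 0) :
    ∃ m ∈ H617.Top (J + 1), wv κ m = ring κ J c u v := by
  obtain ⟨A, hA⟩ := exists_frame u v hu hv huv
  refine ⟨rotP A (rpair J c), rotP_top A (rpair_top J c), ?_⟩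
  funext x
  rw [wv_rot, wv_rpair, ring_eq_comp κ J c hA]

theorem sk_mul_succ (J : ℕ) : sk J * ((J + 1 : ℕ) : ℝ) = 1 := by
  have := sk_mul J
  push_cast
  exact this

/-- membership of the coherent functions in the shell, as elements of `H¹` -/
theorem exists_ring (J : ℕ) (c : ℂ) {u v : R3} (hu : ‖u‖ = 1) (hv : ‖v‖ = 1)
    (huv : inner ℝ u v = 0) : ∃ w ∈ Shell J, w.1.1 = ring (sk J) J c u v := by
  obtain ⟨m, hm, h⟩ := ring_top (sk J) J c hu hv huv
  refine ⟨Phi (sk_pos J) m, Submodule.mem_map_of_mem (mem_ShellP.2 ⟨H617.Top_Pn hm,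
    H617.Top_K (sk_mul_succ J) hm⟩), ?_⟩
  rw [← h]
  funext x
  exact Phi_fst _ _ _

theorem exists_ringC (J : ℕ) (a : ℝ) : ∃ w ∈ Shell J, w.1.1 = H115.ringC (J + 1) a := by
  rw [ringC_eq]
  exact exists_ring J _ (norm_e3 2) (norm_wvec a) (inner_e3_wvec a)

theorem exists_ringS (J : ℕ) (a : ℝ) : ∃ w ∈ Shell J, w.1.1 = H115.ringS (J + 1) a := by
  rw [ringS_eq]
  exact exists_ring J _ (norm_e3 2) (norm_wvec a) (inner_e3_wvec a)

/-- the background `r²` on the coherent functions -/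
theorem r2_ring {J : ℕ} {w : H1} (hw : w ∈ Shell J) (c : ℂ) {u v : R3} (hu : ‖u‖ = 1)
    (hv : ‖v‖ = 1) (huv : inner ℝ u v = 0) :
    ∫ x : R3, ‖x‖ ^ 2 * (w.1.1 x * ring (sk J) J c u v x)
      = ((J : ℝ) + 1) ^ 2 * (J + 2) * (2 * J + 3) / 2 * ∫ x, w.1.1 x * ring (sk J) J c u v x := by
  obtain ⟨g, hg, rfl⟩ := hw
  obtain ⟨m, hm, h⟩ := ring_top (sk J) J c hu hv huv
  have h2 := r2_top (sk_pos J) (sk_mul_succ J) (mem_ShellP.1 hg).2 hm
  rw [ip_apply] at h2
  unfold r2 at h2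
  simp only [Phi_fst, h] at h2
  simp only [Phi_fst]
  rw [h2]
  push_cast
  ring

theorem r2_ringC {J : ℕ} {w : H1} (hw : w ∈ Shell J) (a : ℝ) :
    ∫ x : R3, ‖x‖ ^ 2 * (w.1.1 x * H115.ringC (J + 1) a x)
      = ((J : ℝ) + 1) ^ 2 * (J + 2) * (2 * J + 3) / 2 * ∫ x, w.1.1 x * H115.ringC (J + 1) a x := by
  rw [ringC_eq]
  exact r2_ring hw _ (norm_e3 2) (norm_wvec a) (inner_e3_wvec a)

theorem r2_ringS {J : ℕ} {w : H1} (hw : w ∈ Shell J) (a : ℝ) :
    ∫ x : R3, ‖x‖ ^ 2 * (w.1.1 x * H115.ringS (J + 1) a x)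
      = ((J : ℝ) + 1) ^ 2 * (J + 2) * (2 * J + 3) / 2 * ∫ x, w.1.1 x * H115.ringS (J + 1) a x := by
  rw [ringS_eq]
  exact r2_ring hw _ (norm_e3 2) (norm_wvec a) (inner_e3_wvec a)

end

end Vale.Agent.P370.H758
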