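import Vale.Agent.P370.H758.Back
import Vale.Agent.P370.H98.R2aDefs
import Vale.Agent.P370.H890.Orth
import Vale.Agent.P370.H115.Small

/-! **COMP**: the one-body form (light nuclei + closed shells) on the shell: selection of the rings. -/

namespace Vale.Agent.P370.H758

open MeasureTheory Module Vale.Agent.P363.H849 Vale.Agent.P370.H624
open Vale.Agent.P370.H890 (PSD nb OrthOut sel nb_nonneg nb_sq cs)
open Vale.Agent.P370.H115 (rC rS rang ringC ringS)

noncomputable section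

theorem psd_ip : PSD ip := ⟨ip_symm, ip_nonneg⟩

/-! ### bounded potentials -/

theorem int_abs_mul_le (f g : H1) :
    Integrable (fun x => |f.1.1 x| * |g.1.1 x|) ∧
      ∫ x, |f.1.1 x| * |g.1.1 x| ≤ nb ip f * nb ip g := by
  constructor
  · exact (m1 f).norm.integrable_mul (m1 g).norm
  · have h2 : ENNReal.ofReal 2 = 2 := by norm_num
    have h := integral_mul_norm_le_Lp_mul_Lq (μ := (volume : Measure R3)) (p := 2) (q := 2)
      (f := f.1.1) (g := g.1.1) Real.HolderConjugate.two_two (by rw [h2]; exact m1 f)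
      (by rw [h2]; exact m1 g)
    simp only [Real.norm_eq_abs] at h
    refine h.trans (le_of_eq ?_)
    have e : ∀ w : H1, (∫ x, |w.1.1 x| ^ (2 : ℝ)) ^ (1 / 2 : ℝ) = nb ip w := by
      intro w
      rw [← Real.sqrt_eq_rpow, nb, ip_apply]
      congr 2
      funext x
      rw [Real.rpow_two, sq_abs, sq]
    rw [e, e]

theorem bdd_int {u : R3 → ℝ} (hm : Measurable u) {U : ℝ} (hU : ∀ x, |u x| ≤ U) (f g : H1) :
    Integrable (fun x => u x * (f.1.1 x * g.1.1 x)) := by
  refine ((m1 f).integrable_mul (m1 g)).bdd_mul (c := U) hm.aestronglyMeasurable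
    (ae_of_all _ fun x => ?_)
  rw [Real.norm_eq_abs]; exact hU x

theorem bdd_form {u : R3 → ℝ} (hm : Measurable u) {U : ℝ} (hU : ∀ x, |u x| ≤ U) (f g : H1) :
    |∫ x, u x * (f.1.1 x * g.1.1 x)| ≤ U * (nb ip f * nb ip g) := by
  have hU0 : 0 ≤ U := (abs_nonneg _).trans (hU 0)
  obtain ⟨h1, h2⟩ := int_abs_mul_le f g
  calc |∫ x, u x * (f.1.1 x * g.1.1 x)| ≤ ∫ x, |u x * (f.1.1 x * g.1.1 x)| :=
        abs_integral_le_integral_abs
    _ ≤ ∫ x, U * (|f.1.1 x| * |g.1.1 x|) := by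
        refine integral_mono (bdd_int hm hU f g).abs (h1.const_mul U) fun x => ?_
        simp only [abs_mul]
        exact mul_le_mul_of_nonneg_right (hU x) (by positivity)
    _ ≤ _ := by
        rw [integral_const_mul]
        exact mul_le_mul_of_nonneg_left h2 hU0

/-! ### the background -/

/-- `s_J = ⟨r²⟩` on the top multiplet, `n = J + 1` -/
def sJ (J : ℕ) : ℝ := ((J : ℝ) + 1) ^ 2 * (J + 2) * (2 * J + 3) / 2

theorem r2_int {J : ℕ} {f g : H1} (hf : f ∈ Shell J) (hg : g ∈ Shell J) :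
    Integrable fun x : R3 => ‖x‖ ^ 2 * (f.1.1 x * g.1.1 x) := H617.shell_mo_integrable J 2 hf hg

theorem r2_top {J : ℕ} {w g : H1} (hw : w ∈ Shell J) (hg : g ∈ Top J) :
    ∫ x : R3, ‖x‖ ^ 2 * (w.1.1 x * g.1.1 x) = sJ J * ip w g := by
  have key : g ∈ Shell J ∧ ∫ x : R3, ‖x‖ ^ 2 * (w.1.1 x * g.1.1 x) = sJ J * ip w g := by
    induction hg using Submodule.span_induction with
    | mem g hg =>
      obtain ⟨hg, c, u, v, hu, hv, huv, h⟩ := hg
      refine ⟨hg, ?_⟩
      rw [ip_apply, h]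
      exact r2_ring hw c hu hv huv
    | zero =>
      refine ⟨Submodule.zero_mem _, ?_⟩
      rw [map_zero, mul_zero]
      have : ∀ x, ‖x‖ ^ 2 * (w.1.1 x * (0 : H1).1.1 x) = 0 := fun x => by
        show ‖x‖ ^ 2 * (w.1.1 x * 0) = 0
        ring
      simp only [this, integral_zero]
    | add g g' _ _ h h' =>
      refine ⟨Submodule.add_mem _ h.1 h'.1, ?_⟩
      rw [map_add, mul_add, ← h.2, ← h'.2, ← integral_add (r2_int hw h.1) (r2_int hw h'.1)]
      congr 1; funext x
      show ‖x‖ ^ 2 * (w.1.1 x * (g.1.1 x + g'.1.1 x)) = _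
      ring
    | smul a g _ h =>
      refine ⟨Submodule.smul_mem _ a h.1, ?_⟩
      rw [map_smul, smul_eq_mul, mul_left_comm, ← h.2, ← integral_const_mul]
      congr 1; funext x
      show ‖x‖ ^ 2 * (w.1.1 x * (a * g.1.1 x)) = _
      ring
  exact key.2

theorem r2_low {J : ℕ} {f : H1} (hf : f ∈ Shell J) :
    sJ J * ip f f ≤ ∫ x : R3, ‖x‖ ^ 2 * (f.1.1 x * f.1.1 x) := by
  have h := (H617.shell_moments J hf).2.2.1
  unfold H617.mo at h
  unfold sJ
  refine h.trans (le_of_eq ?_)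
  congr 1; funext x; ring

/-! ### the rings as elements of `H¹` -/

/-- the ring orbital `C_i` (`n = J + 1`, `D` rings) -/
def Cv (J D i : ℕ) : H1 := Classical.choose (exists_ringC J (rang D i))

/-- its partner `S_i` -/
def Sv (J D i : ℕ) : H1 := Classical.choose (exists_ringS J (rang D i))

theorem Cv_mem (J D i : ℕ) : Cv J D i ∈ Shell J := (Classical.choose_spec (exists_ringC J (rang D i))).1
theorem Sv_mem (J D i : ℕ) : Sv J D i ∈ Shell J := (Classical.choose_spec (exists_ringS J (rang D i))).1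
theorem Cv_val (J D i : ℕ) : (Cv J D i).1.1 = rC (J + 1) D i :=
  (Classical.choose_spec (exists_ringC J (rang D i))).2
theorem Sv_val (J D i : ℕ) : (Sv J D i).1.1 = rS (J + 1) D i :=
  (Classical.choose_spec (exists_ringS J (rang D i))).2

theorem Cv_top (J D i : ℕ) : Cv J D i ∈ Top J := by
  refine Submodule.subset_span ⟨Cv_mem J D i, (H115.cn (J + 1) : ℂ), e3 2, H115.wvec (rang D i),
    norm_e3 2, norm_wvec _, inner_e3_wvec _, ?_⟩
  rw [Cv_val]
  exact ringC_eq J (rang D i)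

theorem EB_rC (J D i : ℕ) : EB (rC (J + 1) D i) := by
  rw [← Cv_val]; exact EB_shell (Cv_mem J D i)

theorem EB_rS (J D i : ℕ) : EB (rS (J + 1) D i) := by
  rw [← Sv_val]; exact EB_shell (Sv_mem J D i)

theorem Cv_Sv {J D : ℕ} (hJ : 1 ≤ J) (i j : ℕ) : ip (Cv J D i) (Sv J D j) = 0 := by
  rw [ip_apply, Cv_val, Sv_val]
  exact (H115.overlap (J + 1) (rang D i) (rang D j) (by omega)).2.2

/-! ### the programmed potential -/

/-- the selection part -/
def uSx (n m : ℕ) (σ : ℝ) (x : R3) : ℝ :=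
  -(σ * ∑ i ∈ Finset.range m, (rC n m i x ^ 2 - rS n m i x ^ 2))

/-- the hopping part -/
def uTx (n m : ℕ) (τ : ℕ → ℕ → ℝ) (x : R3) : ℝ :=
  -∑ i ∈ Finset.range m, ∑ j ∈ Finset.range m,
    if i < j then τ i j * (rC n m i x * rC n m j x) else 0

theorem EB_uSx (J m : ℕ) (σ : ℝ) : EB (uSx (J + 1) m σ) := by
  have h : ∀ i, EB (fun x => rC (J + 1) m i x ^ 2 - rS (J + 1) m i x ^ 2) := by
    intro i
    have := ((EB_rC J m i).mul (EB_rC J m i)).add (((EB_rS J m i).mul (EB_rS J m i)).const_mul (-1))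
    convert this using 2 with x
    ring
  have := (EB_sum (Finset.range m) h).const_mul (-σ)
  convert this using 2 with x
  unfold uSx; ring

theorem EB_uTx (J m : ℕ) (τ : ℕ → ℕ → ℝ) : EB (uTx (J + 1) m τ) := by
  have h : ∀ i j, EB (fun x => if i < j then τ i j * (rC (J + 1) m i x * rC (J + 1) m j x) else 0) := by
    intro i j
    split_ifs
    · exact ((EB_rC J m i).mul (EB_rC J m j)).const_mul _
    · exact EB_zero
  have := (EB_sum (Finset.range m) fun i => EB_sum (Finset.range m) fun j => h i j).const_mul (-1)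
  convert this using 2 with x
  unfold uTx; ring

theorem rC_mul_le {J : ℕ} (hJ : 1 ≤ J) (m i j : ℕ) (x : R3) :
    |rC (J + 1) m i x * rC (J + 1) m j x| ≤ 1 / (4 * ((J : ℝ) + 1) ^ 5) := by
  have h1 := H115.sup_bound (J + 1) (rang m i) x (by omega)
  have h2 := H115.sup_bound (J + 1) (rang m j) x (by omega)
  push_cast at h1 h2
  have h3 := sq_nonneg (ringS (J + 1) (rang m i) x)
  have h4 := sq_nonneg (ringS (J + 1) (rang m j) x)
  unfold rC
  rw [abs_le]
  constructor <;> nlinarith [sq_nonneg (ringC (J + 1) (rang m i) x + ringC (J + 1) (rang m j) x),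
    sq_nonneg (ringC (J + 1) (rang m i) x - ringC (J + 1) (rang m j) x)]

theorem uTx_le {J : ℕ} (hJ : 1 ≤ J) (m : ℕ) {τ : ℕ → ℕ → ℝ} {τm : ℝ} (hτ0 : 0 ≤ τm)
    (hτ : ∀ a b, a < b → b < m → |τ a b| ≤ τm) (x : R3) :
    |uTx (J + 1) m τ x| ≤ m ^ 2 * τm / (4 * ((J : ℝ) + 1) ^ 5) := by
  unfold uTx
  rw [abs_neg]
  have h : ∀ i ∈ Finset.range m, ∀ j ∈ Finset.range m,
      |if i < j then τ i j * (rC (J + 1) m i x * rC (J + 1) m j x) else 0|
        ≤ τm * (1 / (4 * ((J : ℝ) + 1) ^ 5)) := by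
    intro i _ j hj
    split_ifs with hij
    · rw [abs_mul]
      exact mul_le_mul (hτ i j hij (Finset.mem_range.1 hj)) (rC_mul_le hJ m i j x) (abs_nonneg _) hτ0
    · rw [abs_zero]; positivity
  refine (Finset.abs_sum_le_sum_abs _ _).trans ?_
  refine (Finset.sum_le_sum fun i hi => (Finset.abs_sum_le_sum_abs _ _).trans
    (Finset.sum_le_sum fun j hj => h i hi j hj)).trans (le_of_eq ?_)
  rw [Finset.sum_const, Finset.sum_const, Finset.card_range, nsmul_eq_mul, nsmul_eq_mul]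
  ring

theorem sk_eq (J : ℕ) : sk J = 1 / ((J + 1 : ℕ) : ℝ) := by
  unfold sk; push_cast; rfl

theorem uSx_form (hR : H98.RankStmt) {J : ℕ} (hJ : 1 ≤ J) (D : ℕ) (σ : ℝ) {f g : H1}
    (hf : f ∈ Shell J) (hg : g ∈ Shell J) :
    ∫ x, uSx (J + 1) D σ x * (f.1.1 x * g.1.1 x)
      = σ * H98.kap (J + 1) * sel ip (fun i : Fin D => Cv J D i) (fun i : Fin D => Sv J D i) f g := by
  have hEf := EB_shell hf
  have hEg := EB_shell hg
  have h1 : ∀ i : ℕ, ∫ x, (rC (J + 1) D i x ^ 2 - rS (J + 1) D i x ^ 2) * (f.1.1 x * g.1.1 x)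
      = H98.kap (J + 1) * (ip (Cv J D i) f * ip (Cv J D i) g - ip (Sv J D i) f * ip (Sv J D i) g) := by
    intro i
    have := hR (J + 1) (rang D i) f.1.1 g.1.1 (by omega) (by rw [← sk_eq]; exact shell_mem_Wsp hf)
      (by rw [← sk_eq]; exact shell_mem_Wsp hg)
    simp only [ip_apply, Cv_val, Sv_val]
    exact this
  have hint : ∀ i : ℕ, Integrable (fun x => (rC (J + 1) D i x ^ 2 - rS (J + 1) D i x ^ 2)
      * (f.1.1 x * g.1.1 x)) := by
    intro i
    have h2 := (((EB_rC J D i).mul (EB_rC J D i)).add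
      (((EB_rS J D i).mul (EB_rS J D i)).const_mul (-1))).mul (hEf.mul hEg)
    refine h2.integrable.congr (ae_of_all _ fun x => ?_)
    simp only
    ring
  have e : ∀ x, uSx (J + 1) D σ x * (f.1.1 x * g.1.1 x) = ∑ i ∈ Finset.range D,
      (-σ) * ((rC (J + 1) D i x ^ 2 - rS (J + 1) D i x ^ 2) * (f.1.1 x * g.1.1 x)) := by
    intro x
    unfold uSx
    rw [← Finset.mul_sum, ← Finset.sum_mul]
    ring
  simp only [e]
  rw [integral_finsetSum _ fun i _ => (hint i).const_mul _]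
  simp only [integral_const_mul, h1]
  unfold sel
  rw [Fin.sum_univ_eq_sum_range
    (fun i => ip (Cv J D i) f * ip (Cv J D i) g - ip (Sv J D i) f * ip (Sv J D i) g) D,
    ← Finset.mul_sum, ← Finset.mul_sum]
  ring

theorem uTx_int (J D : ℕ) (τ : ℕ → ℕ → ℝ) (k l : ℕ) :
    ∫ x, uTx (J + 1) D τ x * (rC (J + 1) D k x * rC (J + 1) D l x)
      = -∑ p ∈ Finset.range D ×ˢ Finset.range D, if p.1 < p.2 then
          τ p.1 p.2 * H98.M4 (J + 1) (rang D p.1) (rang D p.2) (rang D k) (rang D l) else 0 := by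
  have e : ∀ x, uTx (J + 1) D τ x * (rC (J + 1) D k x * rC (J + 1) D l x)
      = ∑ p ∈ Finset.range D ×ˢ Finset.range D, (if p.1 < p.2 then -τ p.1 p.2 else 0) *
        ((rC (J + 1) D p.1 x * rC (J + 1) D p.2 x) * (rC (J + 1) D k x * rC (J + 1) D l x)) := by
    intro x
    unfold uTx
    rw [← Finset.sum_product', ← Finset.sum_neg_distrib, Finset.sum_mul]
    refine Finset.sum_congr rfl fun p _ => ?_
    split_ifs <;> ring
  simp only [e]
  rw [integral_finsetSum _ fun p _ => ((((EB_rC J D p.1).mul (EB_rC J D p.2)).mul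
    ((EB_rC J D k).mul (EB_rC J D l))).integrable.const_mul _), ← Finset.sum_neg_distrib]
  refine Finset.sum_congr rfl fun p _ => ?_
  rw [integral_const_mul]
  split_ifs
  · rw [neg_mul]; rfl
  · simp

/-- the hopping part between two rings -/
theorem uTx_rings (hM : H98.MixStmt) {J : ℕ} (hJ : 1 ≤ J) (D : ℕ) {τ : ℕ → ℕ → ℝ} {τm : ℝ}
    (hτ0 : 0 ≤ τm) (hτ : ∀ a b, a < b → b < D → |τ a b| ≤ τm) {k l : ℕ} (hk : k < D) (hl : l < D) :
    |(∫ x, uTx (J + 1) D τ x * (rC (J + 1) D k x * rC (J + 1) D l x))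
      + (if k < l then τ k l * H98.Mab (J + 1) D k l else
          if l < k then τ l k * H98.Mab (J + 1) D l k else 0)|
      ≤ D ^ 2 * (τm * (16 * ((J : ℝ) + 1) ^ 2 * H98.kap (J + 1)
          * Real.exp (-(J / (8 * (D : ℝ) ^ 4))))) := by
  set mix := 16 * ((J : ℝ) + 1) ^ 2 * H98.kap (J + 1) * Real.exp (-(J / (8 * (D : ℝ) ^ 4))) with hmix
  rw [uTx_int]
  set F : ℕ × ℕ → ℝ := fun p => if p.1 < p.2 then
    τ p.1 p.2 * H98.M4 (J + 1) (rang D p.1) (rang D p.2) (rang D k) (rang D l) else 0 with hF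
  set s := Finset.range D ×ˢ Finset.range D with hs
  have hcard : (s.card : ℝ) = D ^ 2 := by
    rw [hs, Finset.card_product, Finset.card_range]; push_cast; ring
  have hmix0 : 0 ≤ mix := by
    have hk1 := hM (J + 1) 2 0 1 0 0 (by omega) (by omega) (by omega) (by omega) (by omega)
      (by omega) (by omega)
    have h2 : (0 : ℝ) ≤ 16 * ((J + 1 : ℕ) : ℝ) ^ 2 * H98.kap (J + 1)
      * Real.exp (-((((J + 1 : ℕ) : ℝ) - 1) / (8 * ((2 : ℕ) : ℝ) ^ 4))) := (abs_nonneg _).trans hk1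
    have h3 : 0 ≤ H98.kap (J + 1) := by
      by_contra hcon
      push Not at hcon
      have h4 : 0 < Real.exp (-((((J + 1 : ℕ) : ℝ) - 1) / (8 * ((2 : ℕ) : ℝ) ^ 4))) := Real.exp_pos _
      have h5 : (0 : ℝ) < 16 * ((J + 1 : ℕ) : ℝ) ^ 2 := by positivity
      nlinarith [mul_pos h5 h4, mul_pos (mul_pos h5 h4) (neg_pos.2 hcon)]
    rw [hmix]
    positivity
  have hbd : ∀ p ∈ s, (p.1 < p.2 → ¬ ((k = p.1 ∧ l = p.2) ∨ (k = p.2 ∧ l = p.1))) →
      |F p| ≤ τm * mix := by
    intro p hp hres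
    rw [hs, Finset.mem_product, Finset.mem_range, Finset.mem_range] at hp
    rw [hF]
    simp only
    split_ifs with h12
    · rw [abs_mul]
      refine mul_le_mul (hτ _ _ h12 hp.2) ?_ (abs_nonneg _) hτ0
      have h1 := hM (J + 1) D p.1 p.2 k l (by omega) hp.1 hp.2 hk hl (by omega) (hres h12)
      refine h1.trans (le_of_eq ?_)
      rw [hmix]
      push_cast
      rw [add_sub_cancel_right]
    · rw [abs_zero]; positivity
  have htot : ∀ t ⊆ s, (∀ p ∈ t, p.1 < p.2 → ¬ ((k = p.1 ∧ l = p.2) ∨ (k = p.2 ∧ l = p.1))) →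
      |∑ p ∈ t, F p| ≤ D ^ 2 * (τm * mix) := by
    intro t ht hres
    refine (Finset.abs_sum_le_sum_abs _ _).trans ?_
    refine (Finset.sum_le_sum fun p hp => hbd p (ht hp) (hres p hp)).trans ?_
    rw [Finset.sum_const, nsmul_eq_mul, ← hcard]
    refine mul_le_mul_of_nonneg_right ?_ (by positivity)
    exact_mod_cast Finset.card_le_card ht
  rcases lt_trichotomy k l with h | h | h
  · have hmem : (k, l) ∈ s := by simp [hs, hk, hl]
    rw [if_pos h, ← Finset.add_sum_erase s F hmem]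
    have e : F (k, l) = τ k l * H98.Mab (J + 1) D k l := by
      rw [hF]; simp only [if_pos h]; rfl
    rw [e]
    have := htot (s.erase (k, l)) (Finset.erase_subset _ _) (by
      intro p hp h12 hres
      rw [Finset.mem_erase] at hp
      rcases hres with ⟨h1, h2⟩ | ⟨h1, h2⟩
      · exact hp.1 (Prod.ext h1.symm h2.symm)
      · omega)
    rw [← abs_neg] at this
    convert this using 2
    ring
  · rw [if_neg (by omega), if_neg (by omega), add_zero, abs_neg]
    exact htot s le_rfl (by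
      intro p hp h12 hres
      omega)
  · have hmem : (l, k) ∈ s := by simp [hs, hk, hl]
    rw [if_neg (by omega), if_pos h, ← Finset.add_sum_erase s F hmem]
    have e : F (l, k) = τ l k * H98.Mab (J + 1) D l k := by
      rw [hF]; simp only [if_pos h]
      congr 1
      unfold H98.Mab H98.M4
      congr 1; funext x; ring
    rw [e]
    have := htot (s.erase (l, k)) (Finset.erase_subset _ _) (by
      intro p hp h12 hres
      rw [Finset.mem_erase] at hp
      rcases hres with ⟨h1, h2⟩ | ⟨h1, h2⟩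
      · omega
      · exact hp.1 (Prod.ext h2.symm h1.symm))
    rw [← abs_neg] at this
    convert this using 2
    ring

end

end Vale.Agent.P370.H758
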