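import Vale.Agent.P370.H305.CompDefs
import Vale.Agent.P370.H758.Comp

/-! **COMP-INST**: the concrete forms on the shell satisfy `AbsIn`. -/

namespace Vale.Agent.P370.H758

open MeasureTheory Module Vale.Agent.P363.H849 Vale.Agent.P370.H624 Vale.Agent.P370.H305
open Vale.Agent.P370.H890 (PSD nb OrthOut sel nb_nonneg nb_sq cs)
open Vale.Agent.P370.H115 (rC rS rang ringC ringS)

noncomputable section

/-- bilinear forms on the shell given by integrals -/
def intB (J : ℕ) (v : R3 → ℝ)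
    (hv : ∀ f g : Shell J, Integrable (fun x => v x * ((f : H1).1.1 x * (g : H1).1.1 x))) :
    Shell J →ₗ[ℝ] Shell J →ₗ[ℝ] ℝ :=
  LinearMap.mk₂ ℝ (fun f g => ∫ x, v x * ((f : H1).1.1 x * (g : H1).1.1 x))
    (fun f f' g => by
      rw [← integral_add (hv f g) (hv f' g)]
      congr 1; funext x
      show v x * (((f : H1).1.1 x + (f' : H1).1.1 x) * (g : H1).1.1 x) = _
      ring)
    (fun c f g => by
      rw [smul_eq_mul, ← integral_const_mul]
      congr 1; funext x
      show v x * ((c * (f : H1).1.1 x) * (g : H1).1.1 x) = _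
      ring)
    (fun f g g' => by
      rw [← integral_add (hv f g) (hv f g')]
      congr 1; funext x
      show v x * ((f : H1).1.1 x * ((g : H1).1.1 x + (g' : H1).1.1 x)) = _
      ring)
    (fun c f g => by
      rw [smul_eq_mul, ← integral_const_mul]
      congr 1; funext x
      show v x * ((f : H1).1.1 x * (c * (g : H1).1.1 x)) = _
      ring)

theorem intB_apply (J : ℕ) (v : R3 → ℝ)
    (hv : ∀ f g : Shell J, Integrable (fun x => v x * ((f : H1).1.1 x * (g : H1).1.1 x)))
    (f g : Shell J) : intB J v hv f g = ∫ x, v x * ((f : H1).1.1 x * (g : H1).1.1 x) := rfl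

/-- the core form on the shell -/
def coreL {J : ℕ} (S : Filled J (Closed J)) : Shell J →ₗ[ℝ] Shell J →ₗ[ℝ] ℝ :=
  LinearMap.mk₂ ℝ (fun f g => core S (f : H1).1.1 (g : H1).1.1)
    (fun f f' g => core_add_left S (EB_shell f.2) (EB_shell f'.2) (EB_shell g.2))
    (fun c f g => core_smul_left S c (f : H1).1.1 (g : H1).1.1)
    (fun f g g' => by
      rw [core_symm S (EB_shell f.2) (EB_shell (g + g').2), core_symm S (EB_shell f.2) (EB_shell g.2),
        core_symm S (EB_shell f.2) (EB_shell g'.2)]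
      exact core_add_left S (EB_shell g.2) (EB_shell g'.2) (EB_shell f.2))
    (fun c f g => by
      rw [core_symm S (EB_shell f.2) (EB_shell (c • g).2), core_symm S (EB_shell f.2) (EB_shell g.2)]
      exact core_smul_left S c (g : H1).1.1 (f : H1).1.1)

theorem coreL_apply {J : ℕ} (S : Filled J (Closed J)) (f g : Shell J) :
    coreL S f g = core S (f : H1).1.1 (g : H1).1.1 := rfl

/-- integrability of the attraction of a point charge -/
theorem pot_int {J : ℕ} {f g : H1} (hf : f ∈ Shell J) (hg : g ∈ Shell J) (a : R3) :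
    Integrable (fun x => (1 / ‖x - a‖) * (f.1.1 x * g.1.1 x)) := by
  have h1 := ((shell_pot_le hf a).1.add (shell_pot_le hg a).1).const_mul (1 / 2)
  have hm : Measurable (fun x : R3 => 1 / ‖x - a‖) := by
    have : Continuous (fun x : R3 => ‖x - a‖) := by fun_prop
    exact measurable_const.div this.measurable
  refine h1.mono' ((hm.mul ((EB_shell hf).1.mul (EB_shell hg).1)).aestronglyMeasurable)
    (ae_of_all _ fun x => ?_)
  rw [Real.norm_eq_abs, abs_mul, abs_of_nonneg (by positivity : (0 : ℝ) ≤ 1 / ‖x - a‖)]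
  simp only [Pi.add_apply]
  rw [norm_sub_rev a x]
  have h2 : |f.1.1 x * g.1.1 x| ≤ 1 / 2 * (f.1.1 x * f.1.1 x + g.1.1 x * g.1.1 x) := by
    rw [abs_le]
    constructor <;> nlinarith [sq_nonneg (f.1.1 x + g.1.1 x), sq_nonneg (f.1.1 x - g.1.1 x)]
  calc 1 / ‖x - a‖ * |f.1.1 x * g.1.1 x|
      ≤ 1 / ‖x - a‖ * (1 / 2 * (f.1.1 x * f.1.1 x + g.1.1 x * g.1.1 x)) :=
        mul_le_mul_of_nonneg_left h2 (by positivity)
    _ = _ := by ring

/-- the potential of the light nuclei -/
def vL (L : Finset (Fin 3 → ℤ)) (y : (Fin 3 → ℤ) → R3) (x : R3) : ℝ := -∑ k ∈ L, 1 / ‖x - y k‖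

theorem vL_int {J : ℕ} (L : Finset (Fin 3 → ℤ)) (y : (Fin 3 → ℤ) → R3) (f g : Shell J) :
    Integrable (fun x => vL L y x * ((f : H1).1.1 x * (g : H1).1.1 x)) := by
  have h := (integrable_finsetSum L fun k _ => pot_int f.2 g.2 (y k)).neg
  refine h.congr (ae_of_all _ fun x => ?_)
  simp only [Pi.neg_apply, vL]
  rw [← Finset.sum_mul]; ring

theorem lightF_eq {J : ℕ} (L : Finset (Fin 3 → ℤ)) (y : (Fin 3 → ℤ) → R3) (f g : Shell J) :
    lightF L y (f : H1).1.1 (g : H1).1.1 = ∫ x, vL L y x * ((f : H1).1.1 x * (g : H1).1.1 x) := by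
  unfold lightF H198.pot vL
  have e : ∀ x, (-∑ k ∈ L, 1 / ‖x - y k‖) * ((f : H1).1.1 x * (g : H1).1.1 x)
      = -∑ k ∈ L, (1 / ‖x - y k‖) * ((f : H1).1.1 x * (g : H1).1.1 x) := by
    intro x
    rw [neg_mul, Finset.sum_mul]
  simp only [e]
  rw [integral_neg, integral_finsetSum L fun k _ => pot_int f.2 g.2 (y k)]
  congr 1
  refine Finset.sum_congr rfl fun k _ => ?_
  congr 1; funext x
  ring

/-- the rank two forms -/
def selL (J : ℕ) {m : ℕ} (C R : Fin m → Shell J) : Shell J →ₗ[ℝ] Shell J →ₗ[ℝ] ℝ :=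
  -∑ i, ((LinearMap.mul ℝ ℝ).compl₁₂ (ipS J (C i)) (ipS J (C i))
    - (LinearMap.mul ℝ ℝ).compl₁₂ (ipS J (R i)) (ipS J (R i)))

theorem selL_apply (J : ℕ) {m : ℕ} (C R : Fin m → Shell J) (f g : Shell J) :
    selL J C R f g = sel (ipS J) C R f g := by
  unfold selL sel
  simp only [LinearMap.neg_apply, LinearMap.sum_apply, LinearMap.sub_apply,
    LinearMap.compl₁₂_apply, LinearMap.mul_apply']

theorem nb_ipS {J : ℕ} (f : Shell J) : nb (ipS J) f = nrm (f : H1) := rfl

theorem psd_ipS (J : ℕ) : PSD (V := Shell J) (ipS J) := ⟨fun _ _ => ip_symm _ _, fun _ => ip_nonneg _⟩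

theorem EB_uT98 (J m : ℕ) (T : ℕ → ℕ → ℝ) : EB (H98.uT (J + 1) m T) := by
  have h := (EB_sum (Finset.range m) fun b => EB_sum (Finset.range b) fun a =>
    ((EB_rC J m a).mul (EB_rC J m b)).const_mul (T a b / H98.Mab (J + 1) m a b)).const_mul (-1)
  convert h using 2 with x
  unfold H98.uT; ring

theorem EB_uS98 (J m : ℕ) (S : ℝ) : EB (H98.uS (J + 1) m S) := by
  have h : ∀ i, EB (fun x => rC (J + 1) m i x ^ 2 - rS (J + 1) m i x ^ 2) := by
    intro i
    have := ((EB_rC J m i).mul (EB_rC J m i)).add (((EB_rS J m i).mul (EB_rS J m i)).const_mul (-1))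
    convert this using 2 with x
    ring
  exact (EB_sum (Finset.range m) h).const_mul (-(S / H98.kap (J + 1)))

theorem m2_int {J : ℕ} (f g : Shell J) :
    Integrable (fun x : R3 => ‖x‖ ^ 2 * ((f : H1).1.1 x * (g : H1).1.1 x)) := r2_int f.2 g.2

theorem uT_int {J : ℕ} (m : ℕ) (T : ℕ → ℕ → ℝ) (f g : Shell J) :
    Integrable (fun x : R3 => H98.uT (J + 1) m T x * ((f : H1).1.1 x * (g : H1).1.1 x)) :=
  ((EB_uT98 J m T).mul ((EB_shell f.2).mul (EB_shell g.2))).integrable

/-- **COMP-INST** -/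
theorem compStmt {coreE fE : ℕ → ℝ} {phiC phiJ : ℕ → ℝ → ℝ} (hL : LightStmt phiJ)
    (hF : FieldStmt coreE fE phiC) (hUT : UTStmt) (hOv : OvStmt) (hUS : USStmt)
    (hD : H98.DispuStmt) : CompStmt fE := by
  obtain ⟨K1, hL⟩ := hL
  obtain ⟨K2, hF⟩ := hF
  obtain ⟨K3, hD⟩ := hD
  refine ⟨K1 + K2 + K3, ?_⟩
  intro J m t S τ T y Sf hJ hm hmJ hS hτ hT ht hpos hlv heta
  obtain ⟨hlight, -⟩ := hL J m t S τ T y hJ (by omega) hmJ hS hτ hT ht hpos
  obtain ⟨-, -, hcC, hcb⟩ := hF J Sf (by omega) hlv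
  obtain ⟨-, huT, -⟩ := hD (J + 1) m S τ T (by omega) (by omega) hmJ hS hτ hT
  have hJ1 : (1 : ℝ) ≤ (J : ℝ) + 2 := by linarith [(Nat.cast_nonneg J : (0 : ℝ) ≤ (J : ℝ))]
  have hmono : ∀ a, a ≤ K1 + K2 + K3 → ((J : ℝ) + 2) ^ a ≤ ((J : ℝ) + 2) ^ (K1 + K2 + K3) :=
    fun a ha => pow_le_pow_right₀ hJ1 ha
  have hnn : ∀ f g : Shell J, 0 ≤ nrm (f : H1) * nrm (g : H1) := fun f g =>
    mul_nonneg (Real.sqrt_nonneg _) (Real.sqrt_nonneg _)
  set C : Fin m → Shell J := fun i => ⟨Cv J m i, Cv_mem J m i⟩ with hC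
  set R : Fin m → Shell J := fun i => ⟨Sv J m i, Sv_mem J m i⟩ with hR0
  have hCv : ∀ i, (C i : H1).1.1 = rC (J + 1) m i := fun i => Cv_val J m i
  have hRv : ∀ i, (R i : H1).1.1 = rS (J + 1) m i := fun i => Sv_val J m i
  set Tb := intB J (vL (H198.box (t ^ 4)) y) (vL_int _ y) + coreL Sf with hTb
  set m2 := intB J (fun x => ‖x‖ ^ 2) m2_int with hm2
  set uTb := intB J (H98.uT (J + 1) m T) (uT_int m T) with huTb
  set r := Tb - (-(H198.kap t) • ipS J + (2 * Real.pi / 3 * (t : ℝ) ^ 3) • m2 + S • selL J C R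
    + uTb + coreL Sf) with hr
  have hTbv : ∀ f g : Shell J, Tb f g = lightF (H198.box (t ^ 4)) y (f : H1).1.1 (g : H1).1.1
      + core Sf (f : H1).1.1 (g : H1).1.1 := by
    intro f g
    rw [hTb, LinearMap.add_apply, LinearMap.add_apply, intB_apply, coreL_apply, lightF_eq]
  have hrv : ∀ f g : Shell J, r f g = Tb f g - (-(H198.kap t) * ipS J f g
      + (2 * Real.pi / 3 * (t : ℝ) ^ 3) * m2 f g + S * sel (ipS J) C R f g + uTb f g
      + coreL Sf f g) := by
    intro f g
    rw [hr]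
    simp only [LinearMap.sub_apply, LinearMap.add_apply, LinearMap.smul_apply, smul_eq_mul,
      selL_apply]
  refine ⟨Tb, m2, uTb, coreL Sf, r, C, R, ?_, hTbv, hCv⟩
  have hov : ∀ i j : Fin m, |ipS J (C i) (C j) - if i = j then 1 else 0| ≤ etaR J m := by
    intro i j
    have h := (hOv (J + 1) m i j (by omega) hm i.2 j.2).1
    rw [ipS_apply, ip_apply, hCv, hCv]
    unfold etaR
    simpa only [Fin.ext_iff] using h
  refine
    { psd := psd_ipS J
      P0 := by positivity
      S0 := hS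
      Tsymm := ?_
      Teq := ?_
      m2lo := ?_
      m2C := ?_
      crC := ?_
      crb := ?_
      uTb := ?_
      rb := ?_
      Cn := ?_
      ov := hov
      CR := ?_
      uTC := ?_
      Kc0 := by positivity
      Ku0 := by positivity
      εL0 := by positivity
      mix0 := by unfold mixR; positivity
      η0 := by unfold etaR; positivity
      hη := heta
      m0 := by omega }
  · intro f g
    rw [hTb]
    simp only [LinearMap.add_apply, intB_apply, coreL_apply]
    rw [core_symm Sf (EB_shell f.2) (EB_shell g.2)]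
    simp only [mul_comm ((f : H1).1.1 _) _]
  · intro f g
    rw [hrv]; ring
  · intro f
    exact r2_low f.2
  · intro f i
    have h := r2_ringC f.2 (rang m i)
    rw [hm2, intB_apply, hCv, ipS_apply, ip_apply, hCv]
    exact h
  · intro f i
    rw [coreL_apply, hCv, ipS_apply, ip_apply, hCv]
    exact hcC f f.2 (rang m i)
  · intro f g
    rw [coreL_apply, nb_ipS, nb_ipS]
    exact (hcb f f.2 g g.2).trans (mul_le_mul_of_nonneg_right (hmono K2 (by omega)) (hnn f g))
  · intro f g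
    rw [huTb, intB_apply, nb_ipS, nb_ipS]
    have h := bdd_form (EB_uT98 J m T).1 huT (f : H1) (g : H1)
    refine h.trans (mul_le_mul_of_nonneg_right (mul_le_mul_of_nonneg_right ?_ hτ) (hnn f g))
    push_cast
    exact (pow_le_pow_left₀ (by positivity) (by linarith) K3).trans (hmono K3 (by omega))
  · intro f g
    rw [hrv, hTbv, coreL_apply, nb_ipS, nb_ipS, hm2, huTb, intB_apply, intB_apply, ipS_apply]
    have h := hlight f f.2 g g.2
    have hus := hUS J m S (fun i => (C i : H1)) (fun i => (R i : H1)) (by omega) hCv hRv f f.2 g g.2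
    have e : (∫ x, (H98.uS (J + 1) m S x + H98.uT (J + 1) m T x) * ((f : H1).1.1 x * (g : H1).1.1 x))
        = S * sel (ipS J) C R f g
          + ∫ x, H98.uT (J + 1) m T x * ((f : H1).1.1 x * (g : H1).1.1 x) := by
      have hs : sel (ipS J) C R f g = sel ip (fun i => (C i : H1)) (fun i => (R i : H1)) f g := rfl
      rw [hs, ← hus, ← integral_add
        ((EB_uS98 J m S).mul ((EB_shell f.2).mul (EB_shell g.2))).integrable (uT_int m T f g)]
      congr 1; funext x; ring
    rw [e] at h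
    have e2 : lightF (H198.box (t ^ 4)) y (f : H1).1.1 (g : H1).1.1
        + core Sf (f : H1).1.1 (g : H1).1.1 - (-(H198.kap t) * ip (f : H1) (g : H1)
        + (2 * Real.pi / 3 * (t : ℝ) ^ 3) * (∫ x, ‖x‖ ^ 2 * ((f : H1).1.1 x * (g : H1).1.1 x))
        + S * sel (ipS J) C R f g + (∫ x, H98.uT (J + 1) m T x * ((f : H1).1.1 x * (g : H1).1.1 x))
        + core Sf (f : H1).1.1 (g : H1).1.1)
        = lightF (H198.box (t ^ 4)) y (f : H1).1.1 (g : H1).1.1 + H198.kap t * ip (f : H1) (g : H1)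
        - 2 * Real.pi / 3 * (t : ℝ) ^ 3 * (∫ x, ‖x‖ ^ 2 * ((f : H1).1.1 x * (g : H1).1.1 x))
        - (S * sel (ipS J) C R f g
          + ∫ x, H98.uT (J + 1) m T x * ((f : H1).1.1 x * (g : H1).1.1 x)) := by ring
    rw [e2]
    refine h.trans (mul_le_mul_of_nonneg_right ?_ (hnn f g))
    gcongr
    omega
  · intro i
    have h := (H115.overlap (J + 1) (rang m i) (rang m i) (by omega)).1
    rw [ipS_apply, ip_apply, hCv]
    unfold rC
    rw [h, sub_self, Real.cos_zero, Nat.add_sub_cancel]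
    have : (0 : ℝ) ^ J = 0 := zero_pow (by omega)
    norm_num [this]
  · intro i j
    have h := (hOv (J + 1) m i j (by omega) hm i.2 j.2).2
    rw [ipS_apply, ip_apply, hCv, hRv]
    exact h
  · intro i j
    have h := hUT (J + 1) m i j T τ (by omega) hm i.2 j.2 hT
    rw [huTb, intB_apply, hCv, hCv]
    unfold mixR
    refine le_trans (le_of_eq ?_) h
    congr 1
    unfold H305.hR
    by_cases hij : i = j
    · subst hij; simp
    · have hij' : (i : ℕ) ≠ j := fun h => hij (Fin.ext h)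
      rw [if_neg hij, if_neg hij']
      have e1 : ((min i j : Fin m) : ℕ) = min (i : ℕ) j := by
        exact Fin.coe_min i j
      have e2 : ((max i j : Fin m) : ℕ) = max (i : ℕ) j := by
        exact Fin.coe_max i j
      rw [e1, e2]
      ring

end

end Vale.Agent.P370.H758
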