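import Vale.Agent.P370.H758.Scal
import Vale.Agent.P370.H624.Basis

/-! Closed shells are invariant under linear isometries. -/

namespace Vale.Agent.P370.H758

open MeasureTheory Module Vale.Agent.P363.H849 Vale.Agent.P370.H624

noncomputable section

/-! ### linear algebra -/

theorem orth_rows {V : Type*} [AddCommGroup V] [Module ℝ V] (b : V →ₗ[ℝ] V →ₗ[ℝ] ℝ)
    (hs : ∀ u v, b u v = b v u) {ι : Type*} [Fintype ι] [DecidableEq ι] (w φ : ι → V)
    (hexp : ∀ a, w a = ∑ k, b (w a) (φ k) • φ k)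
    (hw : ∀ a c, b (w a) (w c) = if a = c then 1 else 0) (a c : ι) :
    ∑ k, b (w a) (φ k) * b (w c) (φ k) = if a = c then 1 else 0 := by
  rw [← hw a c]
  conv_rhs => rw [hexp a]
  rw [map_sum, LinearMap.sum_apply]
  refine Finset.sum_congr rfl fun k _ => ?_
  rw [map_smul, LinearMap.smul_apply, smul_eq_mul, hs (φ k) (w c)]

theorem orth_cols {ι : Type*} [Fintype ι] [DecidableEq ι] (O : ι → ι → ℝ)
    (h : ∀ a c, ∑ k, O a k * O c k = if a = c then 1 else 0) (b c : ι) :
    ∑ a, O a b * O a c = if b = c then 1 else 0 := by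
  have hM : (Matrix.of O) * (Matrix.of O).transpose = (1 : Matrix ι ι ℝ) := by
    ext a c
    rw [Matrix.mul_apply, Matrix.one_apply, ← h a c]
    rfl
  have hM' := mul_eq_one_comm.1 hM
  have := congrFun (congrFun hM' b) c
  rw [Matrix.mul_apply, Matrix.one_apply] at this
  exact this

theorem linInd_of_orth {V : Type*} [AddCommGroup V] [Module ℝ V] (b : V →ₗ[ℝ] V →ₗ[ℝ] ℝ)
    {ι : Type*} [Fintype ι] [DecidableEq ι] (w : ι → V)
    (hw : ∀ a c, b (w a) (w c) = if a = c then 1 else 0) : LinearIndependent ℝ w := by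
  rw [Fintype.linearIndependent_iff]
  intro c hc i
  have h1 : b (∑ k, c k • w k) (w i) = 0 := by rw [hc]; simp
  rw [map_sum, LinearMap.sum_apply] at h1
  simpa [hw] using h1

/-! ### shells -/

/-- a rotated shell function is a shell function -/
theorem exists_comp {j : ℕ} {w : H1} (hw : w ∈ Shell j) (A : R3 ≃ₗᵢ[ℝ] R3) :
    ∃ w' ∈ Shell j, ∀ x, w'.1.1 x = w.1.1 (A x) := by
  obtain ⟨u, hu, rfl⟩ := hw
  refine ⟨Phi (sk_pos j) (rotP A u),
    Submodule.mem_map_of_mem (mem_ShellP.2 ⟨rotP_mem_Un A (mem_ShellP.1 hu).1, ?_⟩), fun x => ?_⟩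
  · rw [Kop_rot, (mem_ShellP.1 hu).2]
  · rw [Phi_fst, Phi_fst, wv_rot]

/-- the sum of the first shells -/
def ssum : ℕ → Submodule ℝ H1
  | 0 => ⊥
  | n + 1 => ssum n ⊔ Shell n

theorem mem_ssum {n j : ℕ} (hj : j < n) {w : H1} (hw : w ∈ Shell j) : w ∈ ssum n := by
  induction n with
  | zero => omega
  | succ n ih =>
    rcases Nat.lt_succ_iff_lt_or_eq.1 hj with h | h
    · exact Submodule.mem_sup_left (ih h)
    · subst h
      exact Submodule.mem_sup_right hw

theorem ssum_fin (n : ℕ) : FiniteDimensional ℝ (ssum n) := by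
  induction n with
  | zero => exact (inferInstance : FiniteDimensional ℝ (⊥ : Submodule ℝ H1))
  | succ n ih =>
    have := ih
    exact Submodule.finiteDimensional_sup _ _

theorem finrank_ssum_le (n : ℕ) : finrank ℝ (ssum n) ≤ ∑ j ∈ Finset.range n, (j + 1) ^ 2 := by
  induction n with
  | zero =>
    show finrank ℝ (⊥ : Submodule ℝ H1) ≤ _
    rw [finrank_bot]; exact Nat.zero_le _
  | succ n ih =>
    have := ssum_fin n
    rw [Finset.sum_range_succ, ← finrank_Shell n]
    exact (Submodule.finrank_add_le_finrank_add_finrank _ _).trans (by omega)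

variable {n : ℕ} {ι : Type*} [Fintype ι] [DecidableEq ι]

theorem finrank_ssum (S : Filled n ι) : finrank ℝ (ssum n) = Fintype.card ι := by
  have := ssum_fin n
  apply le_antisymm
  · rw [S.card]; exact finrank_ssum_le n
  · have hli : LinearIndependent ℝ S.φ := linInd_of_orth ip S.φ S.on
    rw [← finrank_span_eq_card hli]
    apply Submodule.finrank_mono
    rw [Submodule.span_le]
    rintro _ ⟨a, rfl⟩
    exact mem_ssum (S.lt a) (S.mem a)

theorem ssum_expand (S : Filled n ι) {w : H1} (hw : w ∈ ssum n) :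
    w = ∑ b, ip w (S.φ b) • S.φ b := by
  have := ssum_fin n
  exact expand_of_card ip (ssum n) S.φ (fun b => mem_ssum (S.lt b) (S.mem b)) S.on
    (finrank_ssum S) hw

/-- **Closed shells are invariant under linear isometries**: the rotated orbitals are obtained by an
orthogonal matrix. -/
theorem rot_matrix (S : Filled n ι) (A : R3 ≃ₗᵢ[ℝ] R3) :
    ∃ O : ι → ι → ℝ, (∀ a x, S.orb a (A x) = ∑ b, O a b * S.orb b x) ∧
      (∀ b c, ∑ a, O a b * O a c = if b = c then 1 else 0) ∧
      (∀ a c, ∑ b, O a b * O c b = if a = c then 1 else 0) := by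
  have h1 : ∀ a, ∃ w' ∈ Shell (S.lv a), ∀ x, w'.1.1 x = (S.φ a).1.1 (A x) := fun a =>
    exists_comp (S.mem a) A
  choose w hw hwx using h1
  have hexp : ∀ a, w a = ∑ b, ip (w a) (S.φ b) • S.φ b := fun a =>
    ssum_expand S (mem_ssum (S.lt a) (hw a))
  have hip : ∀ a c, ip (w a) (w c) = if a = c then 1 else 0 := by
    intro a c
    rw [← S.on a c, ip_apply, ip_apply]
    simp only [hwx]
    have hT : MeasurePreserving A volume volume := A.measurePreserving
    exact hT.integral_comp A.toHomeomorph.measurableEmbedding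
      (fun x => (S.φ a).1.1 x * (S.φ c).1.1 x)
  have hrow := orth_rows ip ip_symm w S.φ hexp hip
  refine ⟨fun a b => ip (w a) (S.φ b), fun a x => ?_, orth_cols _ hrow, hrow⟩
  have h2 := congrArg (fun v : H1 => v.1.1 x) (hexp a)
  simp only [Submodule.coe_sum, Prod.fst_sum, Finset.sum_apply, Submodule.coe_smul,
    Prod.smul_fst, Pi.smul_apply, smul_eq_mul] at h2
  rw [hwx] at h2
  exact h2

theorem sum_orth {ι : Type*} [Fintype ι] [DecidableEq ι] (O : ι → ι → ℝ)
    (h : ∀ b c, ∑ a, O a b * O a c = if b = c then 1 else 0) (F : ι → ι → ℝ) :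
    ∑ a, ∑ b, ∑ c, O a b * O a c * F b c = ∑ b, F b b := by
  rw [Finset.sum_comm]
  refine Finset.sum_congr rfl fun b _ => ?_
  rw [Finset.sum_comm]
  simp only [← Finset.sum_mul, h, ite_mul, one_mul, zero_mul, Finset.sum_ite_eq, Finset.mem_univ,
    if_true]

/-- the kernel of the closed shells is invariant -/
theorem kernel_rot (S : Filled n ι) (A : R3 ≃ₗᵢ[ℝ] R3) (x y : R3) :
    ∑ a, S.orb a (A x) * S.orb a (A y) = ∑ a, S.orb a x * S.orb a y := by
  obtain ⟨O, hO, hc, -⟩ := rot_matrix S A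
  simp only [hO, Finset.sum_mul_sum]
  rw [← sum_orth O hc (fun b c => S.orb b x * S.orb c y)]
  refine Finset.sum_congr rfl fun a _ => Finset.sum_congr rfl fun b _ =>
    Finset.sum_congr rfl fun c _ => by ring

end

end Vale.Agent.P370.H758
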