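import Vale.Agent.P370.H758.Inst
import Vale.Agent.P370.H305.ValInst
import Vale.Agent.P370.H253.US
import Vale.Agent.P370.H253.Diag
import Vale.Agent.P370.H207.UD
import Vale.Agent.P370.H207.Heff
import Vale.Agent.P370.H227.WnS
import Vale.Agent.P370.H374.Field
import Vale.Agent.P370.H405.C23Fin
import Vale.Agent.P370.H617.Stmts
import Vale.Agent.P370.H696.Lattice
import Vale.Agent.P370.H890.UT
import Vale.Agent.P370.H890.Off
import Vale.Agent.P370.H98.Kap
import Vale.Agent.P370.H305.Final
import Vale.Agent.P370.H305.GComp
import Vale.Agent.P370.H207.Nums
import Vale.Agent.P370.H855.Prog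

/-!
P370, line Q, half (II): all hypotheses of the final assembly of `ContCoreStmt` as closed theorems, for
the functions `H374.coreE`, `H374.fE`, `H227.phiC`, `H227.phiJ` of the program.
-/

namespace Vale.Agent.P370.H758.In

open Vale.Agent.P370.H305

/-- first-order perturbation theory -/
theorem c23 : C23Stmt := H405.C2.c23

/-- the rings are in the shell -/
theorem ringShell : RingShellStmt := H617.ringShellStmt

/-- second moment -/
theorem mom : MomStmt := H617.momStmt

/-- products in the shell -/
theorem p2 : P2Stmt := H617.p2Stmt

/-- two-electron integrals in the shell -/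
theorem g : GStmt := H617.gStmt

/-- radial density -/
theorem wn : WnStmt H227.phiJ := H227.wnStmt

/-- mean field of the closed shells -/
theorem field : FieldStmt H374.coreE H374.fE H227.phiC := H374.fieldStmt

/-- self-energy of a ring -/
theorem diag : DiagStmt := H253.diagStmt

/-- overlaps of the rings -/
theorem ov : OvStmt := H890.ovStmt

/-- hopping matrix elements -/
theorem ut : UTStmt := H890.utStmt H115.mix_stmt H115.kap_stmt

/-- hopping potential in the radial density -/
theorem utw : UTwStmt := H890.utwStmt wn

/-- selection potential -/
theorem us : USStmt := H253.usStmt H98.rankStmt H98.kapStmt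

/-- programmed potential and its gradient -/
theorem ud : UDStmt := H207.udStmt

/-- Heisenberg form by multiplicities -/
theorem form : FormStmt := H207.formStmt

/-- effective form -/
theorem heff : HeffStmt := H207.heffStmt

/-- lattice -/
theorem latt : H198.LatticeStmt := H696.latticeStmt

/-- light nuclei -/
theorem light (hD : H98.DispuStmt) : LightStmt H227.phiJ := H253.lightStmt latt p2 wn hD

/-- one-body part -/
theorem comp (hD : H98.DispuStmt) : CompStmt H374.fE :=
  H758.compStmt (light hD) field ut ov us hD

/-- offset -/
theorem off (hD : H98.DispuStmt) : OffStmt H374.coreE H374.fE H227.phiC H227.phiJ :=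
  H890.offStmt field (light hD) utw

/-- **The analytic core** from the estimates of the programmed potential -/
theorem contCore (hD : H98.DispuStmt) : ContCoreStmt H374.coreE H374.fE H227.phiC H227.phiJ :=
  contCore_of (comp hD) gCompStmt c23 ud (off hD) H207.numStmt

/-- **Second half of line Q** from the two remaining blocks -/
theorem toCont (hD : H98.DispuStmt) (hG : H855.GradPTR) (hG0 : H855.GradZero) :
    Heis.ToContStmt :=
  toCont_of (contCore hD) (H855.prog_of hG hG0)

end Vale.Agent.P370.H758.In
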