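import Vale.Agent.P370.H758.Closed
import Vale.Agent.P370.H115.RingDefs

/-! The mean field of closed shells on a hydrogenic shell. -/

namespace Vale.Agent.P370.H758

open MeasureTheory Module Vale.Agent.P363.H849 Vale.Agent.P370.H624
open Vale.Agent.P363.R.H10 (DD Nice nice_of_exp Nice.add Nice.const_mul DD_comm DD_add_left
  DD_add_right DD_mul_left DD_mul_right DD_isom integral_isom integrable_pow6)

noncomputable section

/-! ### exponentially bounded functions -/

/-- measurable and exponentially bounded -/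
def EB (f : R3 → ℝ) : Prop :=
  Measurable f ∧ ∃ A c : ℝ, 0 ≤ A ∧ 0 < c ∧ ∀ x, |f x| ≤ A * Real.exp (-c * ‖x‖)

theorem EB.add {f g : R3 → ℝ} (hf : EB f) (hg : EB g) : EB (fun x => f x + g x) := by
  obtain ⟨mf, A, c, hA, hc, hf⟩ := hf
  obtain ⟨mg, A', c', hA', hc', hg⟩ := hg
  refine ⟨mf.add mg, A + A', min c c', by positivity, lt_min hc hc', fun x => ?_⟩
  have h1 : Real.exp (-c * ‖x‖) ≤ Real.exp (-(min c c') * ‖x‖) := by
    apply Real.exp_le_exp.2
    have := min_le_left c c'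
    nlinarith [norm_nonneg x]
  have h2 : Real.exp (-c' * ‖x‖) ≤ Real.exp (-(min c c') * ‖x‖) := by
    apply Real.exp_le_exp.2
    have := min_le_right c c'
    nlinarith [norm_nonneg x]
  calc |f x + g x| ≤ |f x| + |g x| := abs_add_le _ _
    _ ≤ A * Real.exp (-c * ‖x‖) + A' * Real.exp (-c' * ‖x‖) := add_le_add (hf x) (hg x)
    _ ≤ A * Real.exp (-(min c c') * ‖x‖) + A' * Real.exp (-(min c c') * ‖x‖) := by gcongr
    _ = _ := by ring

theorem EB.const_mul {f : R3 → ℝ} (hf : EB f) (a : ℝ) : EB (fun x => a * f x) := by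
  obtain ⟨mf, A, c, hA, hc, hf⟩ := hf
  refine ⟨mf.const_mul a, |a| * A, c, by positivity, hc, fun x => ?_⟩
  rw [abs_mul, mul_assoc]
  exact mul_le_mul_of_nonneg_left (hf x) (abs_nonneg _)

theorem EB.mul {f g : R3 → ℝ} (hf : EB f) (hg : EB g) : EB (fun x => f x * g x) := by
  obtain ⟨mf, A, c, hA, hc, hf⟩ := hf
  obtain ⟨mg, A', c', hA', hc', hg⟩ := hg
  refine ⟨mf.mul mg, A * A', c + c', by positivity, by positivity, fun x => ?_⟩
  rw [abs_mul]
  calc |f x| * |g x| ≤ (A * Real.exp (-c * ‖x‖)) * (A' * Real.exp (-c' * ‖x‖)) :=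
        mul_le_mul (hf x) (hg x) (abs_nonneg _) (by positivity)
    _ = A * A' * (Real.exp (-c * ‖x‖) * Real.exp (-c' * ‖x‖)) := by ring
    _ = _ := by rw [← Real.exp_add]; ring_nf

theorem EB.nice {f : R3 → ℝ} (hf : EB f) : Nice f := by
  obtain ⟨mf, A, c, hA, hc, hf⟩ := hf
  have h := nice_of_exp (q := fun x => f x * Real.exp (c * ‖x‖)) (by fun_prop) hc 0 hA (by
    intro x
    rw [pow_zero, mul_one, abs_mul, abs_of_pos (Real.exp_pos _)]
    calc |f x| * Real.exp (c * ‖x‖) ≤ A * Real.exp (-c * ‖x‖) * Real.exp (c * ‖x‖) := by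
          gcongr; exact hf x
      _ = A := by rw [mul_assoc, ← Real.exp_add]; simp)
  have e : (fun x => f x * Real.exp (c * ‖x‖) * Real.exp (-c * ‖x‖)) = f := by
    funext x
    rw [mul_assoc, ← Real.exp_add]; simp
  rw [e] at h
  exact h

theorem Nice.integrable' {f : R3 → ℝ} (hf : Nice f) : Integrable f := by
  obtain ⟨C, hC, hb⟩ := hf.bd
  refine (integrable_pow6.const_mul C).mono' hf.meas.aestronglyMeasurable (ae_of_all _ fun x => ?_)
  rw [Real.norm_eq_abs]
  exact (hb x).trans (le_of_eq (by ring))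

theorem EB.integrable {f : R3 → ℝ} (hf : EB f) : Integrable f := Nice.integrable' hf.nice

theorem EB.comp {f : R3 → ℝ} (hf : EB f) (A : R3 ≃ₗᵢ[ℝ] R3) : EB (fun x => f (A x)) := by
  obtain ⟨mf, C, c, hC, hc, hf⟩ := hf
  refine ⟨mf.comp A.continuous.measurable, C, c, hC, hc, fun x => ?_⟩
  rw [← A.norm_map x]
  exact hf (A x)

theorem EB_wv {κ : ℝ} (hκ : 0 < κ) (u : Poly × Poly) : EB (wv κ u) := by
  obtain ⟨-, A, c, hA, hc, hb⟩ := wv_bd0 hκ u
  refine ⟨(wv_continuous κ u).measurable, max A |wv κ u 0|, c, le_max_of_le_left hA, hc, fun x => ?_⟩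
  by_cases hx : x = 0
  · subst hx
    simp
  · refine (hb x hx).trans ?_
    gcongr
    exact le_max_left _ _

theorem EB_Wsp {κ : ℝ} (hκ : 0 < κ) {n : ℕ} {f : R3 → ℝ} (hf : f ∈ Wsp κ n) : EB f := by
  obtain ⟨u, -, rfl⟩ := mem_Wsp.1 hf
  exact EB_wv hκ u

theorem EB_shell {j : ℕ} {w : H1} (hw : w ∈ Shell j) : EB w.1.1 := by
  obtain ⟨u, -, rfl⟩ := hw
  exact EB_wv (sk_pos j) u

theorem shell_mem_Wsp {j : ℕ} {w : H1} (hw : w ∈ Shell j) : w.1.1 ∈ Wsp (sk j) (j + 1) := by
  obtain ⟨u, hu, rfl⟩ := hw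
  exact mem_Wsp.2 ⟨u, (mem_ShellP.1 hu).1, rfl⟩

/-! ### finite sums in the Coulomb form -/

theorem EB_zero : EB (fun _ => (0 : ℝ)) :=
  ⟨measurable_const, 0, 1, le_rfl, one_pos, fun x => by simp⟩

theorem EB_sum {ι : Type*} (s : Finset ι) {f : ι → R3 → ℝ} (hf : ∀ i, EB (f i)) :
    EB (fun x => ∑ i ∈ s, f i x) := by
  classical
  induction s using Finset.induction_on with
  | empty => simpa using EB_zero
  | insert i s hi ih => simp only [Finset.sum_insert hi]; exact (hf i).add ih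

theorem DD_zero_left (w : R3 → ℝ) : DD (fun _ => 0) w = 0 := by
  unfold DD; simp

theorem DD_sum_left {ι : Type*} (s : Finset ι) {f : ι → R3 → ℝ} (hf : ∀ i, EB (f i)) {w : R3 → ℝ}
    (hw : EB w) : DD (fun x => ∑ i ∈ s, f i x) w = ∑ i ∈ s, DD (f i) w := by
  classical
  induction s using Finset.induction_on with
  | empty => simp [DD_zero_left]
  | insert i s hi ih =>
    simp only [Finset.sum_insert hi]
    rw [DD_add_left (hf i).nice (EB_sum s hf).nice hw.nice, ih]

theorem DD_sum_right {ι : Type*} (s : Finset ι) {f : ι → R3 → ℝ} (hf : ∀ i, EB (f i)) {w : R3 → ℝ}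
    (hw : EB w) : DD w (fun x => ∑ i ∈ s, f i x) = ∑ i ∈ s, DD w (f i) := by
  rw [DD_comm hw.nice (EB_sum s hf).nice, DD_sum_left s hf hw]
  exact Finset.sum_congr rfl fun i _ => DD_comm (hf i).nice hw.nice

/-! ### the mean field -/

variable {n : ℕ} {ι : Type*} [Fintype ι] [DecidableEq ι]

theorem EB_orb (S : Filled n ι) (k : ι) : EB (S.orb k) := EB_shell (S.mem k)

/-- the mean field of closed shells (both spins) as a form: `2 J - K` -/
def core (S : Filled n ι) (f g : R3 → ℝ) : ℝ :=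
  ∑ k, (2 * DD (fun x => f x * g x) (fun y => S.orb k y * S.orb k y)
    - DD (fun x => f x * S.orb k x) (fun y => g y * S.orb k y))

theorem core_symm (S : Filled n ι) {f g : R3 → ℝ} (hf : EB f) (hg : EB g) :
    core S f g = core S g f := by
  unfold core
  refine Finset.sum_congr rfl fun k _ => ?_
  rw [DD_comm (hf.mul (EB_orb S k)).nice (hg.mul (EB_orb S k)).nice]
  simp only [mul_comm (f _) (g _)]

theorem core_add_left (S : Filled n ι) {f f' g : R3 → ℝ} (hf : EB f) (hf' : EB f') (hg : EB g) :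
    core S (fun x => f x + f' x) g = core S f g + core S f' g := by
  unfold core
  rw [← Finset.sum_add_distrib]
  refine Finset.sum_congr rfl fun k _ => ?_
  simp only [add_mul]
  rw [DD_add_left (hf.mul hg).nice (hf'.mul hg).nice ((EB_orb S k).mul (EB_orb S k)).nice,
    DD_add_left (hf.mul (EB_orb S k)).nice (hf'.mul (EB_orb S k)).nice (hg.mul (EB_orb S k)).nice]
  ring

theorem core_smul_left (S : Filled n ι) (c : ℝ) (f g : R3 → ℝ) :
    core S (fun x => c * f x) g = c * core S f g := by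
  unfold core
  rw [Finset.mul_sum]
  refine Finset.sum_congr rfl fun k _ => ?_
  simp only [mul_assoc]
  rw [DD_mul_left, DD_mul_left]
  ring

theorem core_comp (S : Filled n ι) {f g : R3 → ℝ} (hf : EB f) (hg : EB g) (A : R3 ≃ₗᵢ[ℝ] R3) :
    core S (fun x => f (A x)) (fun x => g (A x)) = core S f g := by
  obtain ⟨O, hO, hc, -⟩ := rot_matrix S A
  have hb : ∀ b c : ι, EB (fun x => S.orb b x * S.orb c x) := fun b c => (EB_orb S b).mul (EB_orb S c)
  -- direct term
  have h1 : ∑ k, DD (fun x => f x * g x) (fun y => S.orb k y * S.orb k y)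
      = ∑ k, DD (fun x => f (A x) * g (A x)) (fun y => S.orb k y * S.orb k y) := by
    have e : ∀ k, DD (fun x => f x * g x) (fun y => S.orb k y * S.orb k y)
        = ∑ b, ∑ c, O k b * O k c *
          DD (fun x => f (A x) * g (A x)) (fun y => S.orb b y * S.orb c y) := by
      intro k
      rw [← DD_isom A]
      have e2 : (fun y => S.orb k (A y) * S.orb k (A y))
          = fun y => ∑ b, ∑ c, (O k b * O k c) * (S.orb b y * S.orb c y) := by
        funext y
        rw [hO, Finset.sum_mul_sum]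
        refine Finset.sum_congr rfl fun b _ => Finset.sum_congr rfl fun c _ => by ring
      rw [e2, DD_sum_right _ (fun b => EB_sum _ fun c => (hb b c).const_mul _)
        ((hf.comp A).mul (hg.comp A))]
      refine Finset.sum_congr rfl fun b _ => ?_
      rw [DD_sum_right _ (fun c => (hb b c).const_mul _) ((hf.comp A).mul (hg.comp A))]
      exact Finset.sum_congr rfl fun c _ => DD_mul_right _ _ _
    rw [Finset.sum_congr rfl fun k _ => e k]
    exact sum_orth O hc _
  -- exchange term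
  have h2 : ∑ k, DD (fun x => f x * S.orb k x) (fun y => g y * S.orb k y)
      = ∑ k, DD (fun x => f (A x) * S.orb k x) (fun y => g (A y) * S.orb k y) := by
    have e : ∀ k, DD (fun x => f x * S.orb k x) (fun y => g y * S.orb k y)
        = ∑ b, ∑ c, O k b * O k c *
          DD (fun x => f (A x) * S.orb b x) (fun y => g (A y) * S.orb c y) := by
      intro k
      rw [← DD_isom A]
      have e2 : (fun x => f (A x) * S.orb k (A x)) = fun x => ∑ b, O k b * (f (A x) * S.orb b x) := by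
        funext x
        rw [hO, Finset.mul_sum]
        exact Finset.sum_congr rfl fun b _ => by ring
      have e3 : (fun x => g (A x) * S.orb k (A x)) = fun x => ∑ b, O k b * (g (A x) * S.orb b x) := by
        funext x
        rw [hO, Finset.mul_sum]
        exact Finset.sum_congr rfl fun b _ => by ring
      rw [e2, e3, DD_sum_left _ (fun b => ((hf.comp A).mul (EB_orb S b)).const_mul _)
        (EB_sum _ fun b => ((hg.comp A).mul (EB_orb S b)).const_mul _)]
      refine Finset.sum_congr rfl fun b _ => ?_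
      rw [DD_sum_right _ (fun c => ((hg.comp A).mul (EB_orb S c)).const_mul _)
        (((hf.comp A).mul (EB_orb S b)).const_mul _)]
      refine Finset.sum_congr rfl fun c _ => ?_
      rw [DD_mul_left, DD_mul_right]
      ring
    rw [Finset.sum_congr rfl fun k _ => e k]
    exact sum_orth O hc _
  unfold core
  rw [Finset.sum_sub_distrib, Finset.sum_sub_distrib, ← Finset.mul_sum, ← Finset.mul_sum, h1, h2]

/-- the mean field as a bilinear form -/
def coreB (S : Filled n ι) {κ : ℝ} (hκ : 0 < κ) (m : ℕ) : LinearMap.BilinForm ℝ (Wsp κ m) :=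
  LinearMap.mk₂ ℝ (fun f g => core S f.1 g.1)
    (fun f f' g => core_add_left S (EB_Wsp hκ f.2) (EB_Wsp hκ f'.2) (EB_Wsp hκ g.2))
    (fun c f g => core_smul_left S c f.1 g.1)
    (fun f g g' => by
      rw [core_symm S (EB_Wsp hκ f.2) (EB_Wsp hκ (g + g').2), core_symm S (EB_Wsp hκ f.2) (EB_Wsp hκ g.2),
        core_symm S (EB_Wsp hκ f.2) (EB_Wsp hκ g'.2)]
      exact core_add_left S (EB_Wsp hκ g.2) (EB_Wsp hκ g'.2) (EB_Wsp hκ f.2))
    (fun c f g => by
      rw [core_symm S (EB_Wsp hκ f.2) (EB_Wsp hκ (c • g).2), core_symm S (EB_Wsp hκ f.2) (EB_Wsp hκ g.2)]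
      exact core_smul_left S c g.1 f.1)

theorem coreB_apply (S : Filled n ι) {κ : ℝ} (hκ : 0 < κ) (m : ℕ) (f g : Wsp κ m) :
    coreB S hκ m f g = core S f.1 g.1 := rfl

/-- a radial potential as a bilinear form -/
def potB {κ : ℝ} (m : ℕ) (U : R3 → ℝ)
    (hU : ∀ f ∈ Wsp κ m, ∀ g ∈ Wsp κ m, Integrable (fun x => U x * (f x * g x))) :
    LinearMap.BilinForm ℝ (Wsp κ m) :=
  LinearMap.mk₂ ℝ (fun f g => ∫ x, U x * (f.1 x * g.1 x))
    (fun f f' g => by
      simp only [Submodule.coe_add, Pi.add_apply, add_mul, mul_add]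
      exact integral_add (hU _ f.2 _ g.2) (hU _ f'.2 _ g.2))
    (fun c f g => by
      simp only [Submodule.coe_smul, Pi.smul_apply, smul_eq_mul]
      rw [← integral_const_mul]
      congr 1; funext x; ring)
    (fun f g g' => by
      simp only [Submodule.coe_add, Pi.add_apply, mul_add]
      exact integral_add (hU _ f.2 _ g.2) (hU _ f.2 _ g'.2))
    (fun c f g => by
      simp only [Submodule.coe_smul, Pi.smul_apply, smul_eq_mul]
      rw [← integral_const_mul]
      congr 1; funext x; ring)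

theorem potB_apply {κ : ℝ} (m : ℕ) (U : R3 → ℝ)
    (hU : ∀ f ∈ Wsp κ m, ∀ g ∈ Wsp κ m, Integrable (fun x => U x * (f x * g x))) (f g : Wsp κ m) :
    potB m U hU f g = ∫ x, U x * (f.1 x * g.1 x) := rfl

theorem one_int {κ : ℝ} (hκ : 0 < κ) (m : ℕ) :
    ∀ f ∈ Wsp κ m, ∀ g ∈ Wsp κ m, Integrable (fun x => (1 : ℝ) * (f x * g x)) := by
  intro f hf g hg
  exact (((EB_Wsp hκ hf).mul (EB_Wsp hκ hg)).const_mul 1).integrable

/-! ### positivity of the norm -/

theorem ring0_continuous (κ : ℝ) (J : ℕ) (c : ℂ) : Continuous (ring0 κ J c) := by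
  unfold ring0 cw
  have h0 : Continuous (fun x : R3 => x 0) := by fun_prop
  have h1 : Continuous (fun x : R3 => x 1) := by fun_prop
  fun_prop

/-- the normalisation -/
def nrm0 (κ : ℝ) (J : ℕ) : ℝ := ∫ x, ‖cw x‖ ^ (2 * J) * Real.exp (-κ * ‖x‖) ^ 2

theorem ring0_sq (κ : ℝ) (J : ℕ) (x : R3) :
    ring0 κ J 1 x * ring0 κ J 1 x + ring0 κ J Complex.I x * ring0 κ J Complex.I x
      = ‖cw x‖ ^ (2 * J) * Real.exp (-κ * ‖x‖) ^ 2 := by
  have h : ‖cw x‖ ^ (2 * J) = (cw x ^ J).re ^ 2 + (cw x ^ J).im ^ 2 := by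
    rw [pow_mul', ← norm_pow, ← Complex.normSq_eq_norm_sq, Complex.normSq_apply]; ring
  rw [h]
  simp only [ring0, one_mul, Complex.mul_re, Complex.I_re, Complex.I_im, zero_mul, zero_sub]
  ring

theorem nrm0_eq {κ : ℝ} (hκ : 0 < κ) (J : ℕ) :
    (∫ x, ring0 κ J 1 x * ring0 κ J 1 x) + ∫ x, ring0 κ J Complex.I x * ring0 κ J Complex.I x
      = nrm0 κ J := by
  have h1 := EB_Wsp hκ (ring0_mem κ J 1)
  have h2 := EB_Wsp hκ (ring0_mem κ J Complex.I)
  rw [← integral_add (h1.mul h1).integrable (h2.mul h2).integrable, nrm0]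
  congr 1; funext x
  exact ring0_sq κ J x

theorem nrm0_pos {κ : ℝ} (hκ : 0 < κ) (J : ℕ) : 0 < nrm0 κ J := by
  have h1 := EB_Wsp hκ (ring0_mem κ J 1)
  have h2 := EB_Wsp hκ (ring0_mem κ J Complex.I)
  have hint : Integrable (fun x => ‖cw x‖ ^ (2 * J) * Real.exp (-κ * ‖x‖) ^ 2) := by
    have := ((h1.mul h1).add (h2.mul h2)).integrable
    refine this.congr (ae_of_all _ fun x => ring0_sq κ J x)
  have hcont : Continuous (fun x : R3 => ‖cw x‖ ^ (2 * J) * Real.exp (-κ * ‖x‖) ^ 2) := by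
    unfold cw
    have h0 : Continuous (fun x : R3 => x 0) := by fun_prop
    have h1 : Continuous (fun x : R3 => x 1) := by fun_prop
    fun_prop
  unfold nrm0
  rw [integral_pos_iff_support_of_nonneg (fun x => by positivity) hint]
  refine hcont.isOpen_support.measure_pos volume ⟨e3 0, ?_⟩
  rw [Function.mem_support]
  have : cw (e3 0) = 1 := by simp [cw, e3]
  rw [this]
  simp [Real.exp_ne_zero]

/-! ### scalarity -/

/-- the scalar of the core mean field on the top multiplet -/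
def coreF (S : Filled n ι) (κ : ℝ) (J : ℕ) : ℝ :=
  (core S (ring0 κ J 1) (ring0 κ J 1) + core S (ring0 κ J Complex.I) (ring0 κ J Complex.I)) / nrm0 κ J

/-- **Scalarity of the core mean field**: coherent functions see only a scalar, whatever the second
function of the space is. -/
theorem core_scalar (S : Filled n ι) {κ : ℝ} (hκ : 0 < κ) (J : ℕ) {f : R3 → ℝ}
    (hf : f ∈ Wsp κ (J + 1)) (c : ℂ) {u v : R3} (hu : ‖u‖ = 1) (hv : ‖v‖ = 1)
    (huv : inner ℝ u v = 0) :
    core S f (ring κ J c u v) = coreF S κ J * ∫ x, f x * ring κ J c u v x := by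
  have h := scalarity κ J (coreB S hκ (J + 1)) (potB (J + 1) (fun _ => 1) (one_int hκ (J + 1)))
    (fun f g => core_symm S (EB_Wsp hκ f.2) (EB_Wsp hκ g.2))
    (fun f g => by simp only [potB_apply, mul_comm])
    (fun A f g => core_comp S (EB_Wsp hκ f.2) (EB_Wsp hκ g.2) A)
    (fun A f g => by
      simp only [potB_apply, act_apply]
      exact integral_isom A (fun x => 1 * (f.1 x * g.1 x)))
    (by
      simp only [potB_apply, one_mul]
      rw [show (∫ x, (r0 κ J 1).1 x * (r0 κ J 1).1 x)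
        + ∫ x, (r0 κ J Complex.I).1 x * (r0 κ J Complex.I).1 x = nrm0 κ J from nrm0_eq hκ J]
      exact (nrm0_pos hκ J).ne')
    c hu hv huv ⟨f, hf⟩
  simp only [coreB_apply, potB_apply, one_mul] at h
  rw [h]
  congr 1
  unfold coreF
  rw [← nrm0_eq hκ J]
  rfl

/-- **Scalarity of an invariant potential.** -/
theorem pot_scalar {κ : ℝ} (hκ : 0 < κ) (J : ℕ) (U : R3 → ℝ)
    (hU : ∀ f ∈ Wsp κ (J + 1), ∀ g ∈ Wsp κ (J + 1), Integrable (fun x => U x * (f x * g x)))
    (hinv : ∀ (A : R3 ≃ₗᵢ[ℝ] R3) x, U (A x) = U x) {f : R3 → ℝ}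
    (hf : f ∈ Wsp κ (J + 1)) (c : ℂ) {u v : R3} (hu : ‖u‖ = 1) (hv : ‖v‖ = 1)
    (huv : inner ℝ u v = 0) :
    ∫ x, U x * (f x * ring κ J c u v x)
      = (∫ x, U x * (‖cw x‖ ^ (2 * J) * Real.exp (-κ * ‖x‖) ^ 2)) / nrm0 κ J
        * ∫ x, f x * ring κ J c u v x := by
  have h := scalarity κ J (potB (J + 1) U hU) (potB (J + 1) (fun _ => 1) (one_int hκ (J + 1)))
    (fun f g => by simp only [potB_apply, mul_comm])
    (fun f g => by simp only [potB_apply, mul_comm])
    (fun A f g => by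
      simp only [potB_apply, act_apply]
      rw [← integral_isom A (fun x => U x * (f.1 x * g.1 x))]
      simp only [hinv])
    (fun A f g => by
      simp only [potB_apply, act_apply]
      exact integral_isom A (fun x => 1 * (f.1 x * g.1 x)))
    (by
      simp only [potB_apply, one_mul]
      rw [show (∫ x, (r0 κ J 1).1 x * (r0 κ J 1).1 x)
        + ∫ x, (r0 κ J Complex.I).1 x * (r0 κ J Complex.I).1 x = nrm0 κ J from nrm0_eq hκ J]
      exact (nrm0_pos hκ J).ne')
    c hu hv huv ⟨f, hf⟩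
  simp only [potB_apply, one_mul] at h
  rw [h]
  congr 1
  rw [show (∫ x, (r0 κ J 1).1 x * (r0 κ J 1).1 x)
        + ∫ x, (r0 κ J Complex.I).1 x * (r0 κ J Complex.I).1 x = nrm0 κ J from nrm0_eq hκ J]
  congr 1
  refine (integral_add (hU _ (ring0_mem κ J 1) _ (ring0_mem κ J 1))
    (hU _ (ring0_mem κ J Complex.I) _ (ring0_mem κ J Complex.I))).symm.trans ?_
  congr 1; funext x
  rw [← ring0_sq κ J x]
  ring

/-! ### the rings of helper115 -/

theorem inner_wvec (a : ℝ) (x : R3) :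
    inner ℝ (H115.wvec a) x = -Real.sin a * x 0 + Real.cos a * x 1 := by
  rw [PiLp.inner_apply, Fin.sum_univ_three]
  simp [H115.wvec]
  ring

theorem norm_wvec (a : ℝ) : ‖H115.wvec a‖ = 1 := by
  rw [EuclideanSpace.norm_eq, Fin.sum_univ_three]
  simp [H115.wvec]

theorem inner_e3_wvec (a : ℝ) : inner ℝ (e3 2) (H115.wvec a) = 0 := by
  rw [real_inner_comm, inner_wvec]
  simp [e3]

theorem norm_e3 (k : Fin 3) : ‖e3 k‖ = 1 := by simp [e3]

theorem zet_eq (a : ℝ) (x : R3) :
    H115.zet a x = (inner ℝ (e3 2) x : ℝ) + (inner ℝ (H115.wvec a) x : ℝ) * Complex.I := by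
  rw [inner_wvec, real_inner_comm, inner_e3]
  unfold H115.zet
  generalize -Real.sin a * x 0 + Real.cos a * x 1 = t
  apply Complex.ext <;> simp

theorem ringC_eq (J : ℕ) (a : ℝ) :
    H115.ringC (J + 1) a = ring (sk J) J (H115.cn (J + 1)) (e3 2) (H115.wvec a) := by
  funext x
  unfold H115.ringC ring
  rw [zet_eq, Nat.add_sub_cancel, Complex.re_ofReal_mul, sk]
  congr 2
  push_cast
  ring

theorem ringS_eq (J : ℕ) (a : ℝ) :
    H115.ringS (J + 1) a = ring (sk J) J (-Complex.I * H115.cn (J + 1)) (e3 2) (H115.wvec a) := by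
  funext x
  unfold H115.ringS ring
  rw [zet_eq, Nat.add_sub_cancel, sk]
  have : ∀ z : ℂ, (-Complex.I * (H115.cn (J + 1) : ℂ) * z).re = H115.cn (J + 1) * z.im := by
    intro z
    simp [Complex.mul_re]
  rw [this]
  congr 2
  push_cast
  ring

/-- the core mean field acts on the ring orbitals as the scalar `coreF S (sk J) J` -/
theorem core_ringC (S : Filled n ι) {J : ℕ} {w : H1} (hw : w ∈ Shell J) (a : ℝ) :
    core S w.1.1 (H115.ringC (J + 1) a)
      = coreF S (sk J) J * ∫ x, w.1.1 x * H115.ringC (J + 1) a x := by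
  rw [ringC_eq]
  exact core_scalar S (sk_pos J) J (shell_mem_Wsp hw) _ (norm_e3 2) (norm_wvec a) (inner_e3_wvec a)

theorem core_ringS (S : Filled n ι) {J : ℕ} {w : H1} (hw : w ∈ Shell J) (a : ℝ) :
    core S w.1.1 (H115.ringS (J + 1) a)
      = coreF S (sk J) J * ∫ x, w.1.1 x * H115.ringS (J + 1) a x := by
  rw [ringS_eq]
  exact core_scalar S (sk_pos J) J (shell_mem_Wsp hw) _ (norm_e3 2) (norm_wvec a) (inner_e3_wvec a)

end

end Vale.Agent.P370.H758
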