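import Vale.Agent.P370.H993.Poisson
import Mathlib.Analysis.Calculus.Gradient.Basic

/-! P370, block `DispuStmt`, part `repr`: a decaying function is the Coulomb field of its gradient. -/

namespace Vale.Agent.P370.H758

open MeasureTheory Set Filter Topology
open Vale.Agent.P363.B5 (S2 sig rad pol integral_pol integral_rad integrable_rad)
open Vale.Agent.P370.H993 (sig_real_univ)
open Vale.Agent.P363.Stmt (R3)

noncomputable section

theorem one_add_le (x z : R3) : 1 + ‖z‖ ≤ (1 + ‖x + z‖) * (1 + ‖x‖) := by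
  have h1 : ‖z‖ ≤ ‖x + z‖ + ‖x‖ := by
    have := norm_sub_le (x + z) x
    rwa [add_sub_cancel_left] at this
  nlinarith [norm_nonneg (x + z), norm_nonneg x, mul_nonneg (norm_nonneg (x + z)) (norm_nonneg x)]

theorem decay_shift {G : R3 → R3} {U : ℝ} (hU : 0 ≤ U) (hb : ∀ x, ‖G x‖ ≤ U / (1 + ‖x‖) ^ 5)
    (x z : R3) : ‖G (x + z)‖ ≤ U * (1 + ‖x‖) ^ 5 / (1 + ‖z‖) ^ 5 := by
  refine (hb _).trans ?_
  have h1 : (1 + ‖z‖) ^ 5 ≤ (1 + ‖x + z‖) ^ 5 * (1 + ‖x‖) ^ 5 := by
    rw [← mul_pow]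
    exact pow_le_pow_left₀ (by positivity) (one_add_le x z) 5
  rw [div_le_div_iff₀ (by positivity) (by positivity)]
  nlinarith [mul_le_mul_of_nonneg_left h1 hU]

theorem intOn_five : IntegrableOn (fun r : ℝ => 1 / (1 + r) ^ 5) (Ioi 0) := by
  have h : IntegrableOn (fun r : ℝ => (r + 1) ^ (-5 : ℝ)) (Ioi 0) :=
    integrableOn_add_rpow_Ioi_of_lt (by norm_num) (by norm_num)
  refine h.congr_fun (fun r hr => ?_) measurableSet_Ioi
  simp only [mem_Ioi] at hr
  have h5 : (r + 1) ^ (5 : ℝ) = (1 + r) ^ 5 := by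
    rw [show (5 : ℝ) = ((5 : ℕ) : ℝ) by norm_num, Real.rpow_natCast, add_comm]
  have h6 : (r + 1) ^ (-5 : ℝ) = ((r + 1) ^ (5 : ℝ))⁻¹ := Real.rpow_neg (by linarith) 5
  rw [h5] at h6
  show (r + 1) ^ (-5 : ℝ) = 1 / (1 + r) ^ 5
  rw [h6, one_div]

theorem ray_repr {u : R3 → ℝ} {G : R3 → R3} {U : ℝ} (hU : 0 ≤ U)
    (hu : ∀ x, HasGradientAt u (G x) x) (hG : Continuous G)
    (hb : ∀ x, ‖G x‖ ≤ U / (1 + ‖x‖) ^ 5) (hu0 : ∀ x, |u x| ≤ U / (1 + ‖x‖)) (x : R3) (w : R3)
    (hw : ‖w‖ = 1) :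
    ∫ r in Ioi (0 : ℝ), inner ℝ (G (x + r • w)) w = -u x := by
  have hder : ∀ r : ℝ, HasDerivAt (fun r : ℝ => u (x + r • w)) (inner ℝ (G (x + r • w)) w) r := by
    intro r
    have h1 : HasDerivAt (fun r : ℝ => x + r • w) w r := by
      have := ((hasDerivAt_id r).smul_const w).const_add x
      simpa using this
    have h2 := (hu (x + r • w)).hasFDerivAt.comp_hasDerivAt r h1
    rw [InnerProductSpace.toDual_apply_apply] at h2
    exact h2
  have hint : IntegrableOn (fun r : ℝ => (inner ℝ (G (x + r • w)) w : ℝ)) (Ioi 0) := by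
    refine (intOn_five.const_mul (U * (1 + ‖x‖) ^ 5)).mono' ?_ ?_
    · exact (Continuous.inner (by fun_prop) continuous_const).aestronglyMeasurable
    · filter_upwards [ae_restrict_mem measurableSet_Ioi] with r hr
      simp only [mem_Ioi] at hr
      refine (norm_inner_le_norm _ _).trans ?_
      rw [hw, mul_one]
      have := decay_shift hU hb x (r • w)
      rw [norm_smul, hw, mul_one, Real.norm_eq_abs, abs_of_pos hr] at this
      rwa [mul_one_div]
  have hlim : Tendsto (fun r : ℝ => u (x + r • w)) atTop (𝓝 0) := by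
    have h2 : Tendsto (fun r : ℝ => U * (1 + ‖x‖) / (1 + r)) atTop (𝓝 0) :=
      Tendsto.div_atTop tendsto_const_nhds (tendsto_atTop_add_const_left _ _ tendsto_id)
    refine squeeze_zero_norm' ?_ h2
    filter_upwards [eventually_gt_atTop (0 : ℝ)] with r hr
    rw [Real.norm_eq_abs]
    refine (hu0 _).trans ?_
    have h3 := one_add_le x (r • w)
    rw [norm_smul, hw, mul_one, Real.norm_eq_abs, abs_of_pos hr] at h3
    rw [div_le_div_iff₀ (by positivity) (by positivity)]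
    nlinarith [mul_le_mul_of_nonneg_left h3 hU]
  have := integral_Ioi_of_hasDerivAt_of_tendsto' (a := 0) (fun r _ => hder r) hint hlim
  rw [this]
  simp

/-- **The representation of a decaying function by its gradient.** -/
theorem repr_of {u : R3 → ℝ} {G : R3 → R3} {U : ℝ} (hU : 0 ≤ U)
    (hu : ∀ x, HasGradientAt u (G x) x) (hG : Continuous G)
    (hb : ∀ x, ‖G x‖ ≤ U / (1 + ‖x‖) ^ 5) (hu0 : ∀ x, |u x| ≤ U / (1 + ‖x‖)) (x : R3) :
    4 * Real.pi * u x = ∫ y, inner ℝ (G y) (x - y) / ‖x - y‖ ^ 3 := by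
  set F : R3 → ℝ := fun z => -(inner ℝ (G (x + z)) z / ‖z‖ ^ 3) with hF
  have e1 : ∫ y, inner ℝ (G y) (x - y) / ‖x - y‖ ^ 3 = ∫ z, F z := by
    rw [← integral_add_left_eq_self (fun y => (inner ℝ (G y) (x - y) / ‖x - y‖ ^ 3 : ℝ)) x]
    refine integral_congr_ae (Eventually.of_forall fun z => ?_)
    simp only [hF, sub_add_cancel_left, norm_neg, inner_neg_right, neg_div]
  have hval : ∀ (w : S2) (r : Ioi (0 : ℝ)), F (pol (w, r)) =
      1 / (r : ℝ) ^ 2 * -(inner ℝ (G (x + (r : ℝ) • (w : R3))) (w : R3)) := by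
    intro w r
    have hw : ‖(w : R3)‖ = 1 := by simp
    have hr : (0 : ℝ) < r := r.2
    simp only [hF, pol]
    rw [norm_smul, hw, mul_one, Real.norm_eq_abs, abs_of_pos hr, inner_smul_right]
    field_simp
  have hint : Integrable (fun p => F (pol p)) (sig.prod rad) := by
    have hg : Integrable (fun r : Ioi (0 : ℝ) =>
        U * (1 + ‖x‖) ^ 5 * (1 / (r : ℝ) ^ 2 * (1 / (1 + (r : ℝ)) ^ 5))) rad := by
      rw [integrable_rad (g := fun r => U * (1 + ‖x‖) ^ 5 * (1 / r ^ 2 * (1 / (1 + r) ^ 5)))]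
      have h5 : IntegrableOn (fun r : ℝ => U * (1 + ‖x‖) ^ 5 * (1 / (1 + r) ^ 5)) (Ioi 0) :=
        intOn_five.const_mul (U * (1 + ‖x‖) ^ 5)
      refine h5.congr_fun (fun r hr => ?_) measurableSet_Ioi
      simp only [mem_Ioi] at hr
      have : r ^ 2 ≠ 0 := by positivity
      field_simp
    have hg2 : Integrable (fun p : S2 × Ioi (0 : ℝ) =>
        U * (1 + ‖x‖) ^ 5 * (1 / (p.2 : ℝ) ^ 2 * (1 / (1 + (p.2 : ℝ)) ^ 5))) (sig.prod rad) := by
      have := (integrable_const (1 : ℝ) (μ := (sig : Measure S2))).mul_prod hg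
      simpa using this
    refine hg2.mono' ?_ (Eventually.of_forall fun p => ?_)
    · have hm : Measurable F := by
        have h1 : Measurable fun z => (inner ℝ (G (x + z)) z : ℝ) :=
          (Continuous.inner (by fun_prop) continuous_id).measurable
        exact (h1.div (by fun_prop)).neg
      exact (hm.comp Vale.Agent.P363.B5.measurable_pol).aestronglyMeasurable
    · obtain ⟨w, r⟩ := p
      have hw : ‖(w : R3)‖ = 1 := by simp
      have hr : (0 : ℝ) < r := r.2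
      rw [hval, norm_mul, norm_neg, Real.norm_eq_abs, abs_of_pos (by positivity)]
      have h1 : ‖(inner ℝ (G (x + (r : ℝ) • (w : R3))) (w : R3) : ℝ)‖ ≤
          U * (1 + ‖x‖) ^ 5 / (1 + (r : ℝ)) ^ 5 := by
        refine (norm_inner_le_norm _ _).trans ?_
        rw [hw, mul_one]
        have := decay_shift hU hb x ((r : ℝ) • (w : R3))
        rwa [norm_smul, hw, mul_one, Real.norm_eq_abs, abs_of_pos hr] at this
      calc 1 / (r : ℝ) ^ 2 * ‖(inner ℝ (G (x + (r : ℝ) • (w : R3))) (w : R3) : ℝ)‖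
          ≤ 1 / (r : ℝ) ^ 2 * (U * (1 + ‖x‖) ^ 5 / (1 + (r : ℝ)) ^ 5) := by gcongr
        _ = _ := by ring
  rw [e1, integral_pol, integral_prod _ hint]
  have e2 : ∀ w : S2, ∫ r : Ioi (0 : ℝ), F (pol (w, r)) ∂rad = u x := by
    intro w
    have hw : ‖(w : R3)‖ = 1 := by simp
    have h1 : ∫ r : Ioi (0 : ℝ), F (pol (w, r)) ∂rad = ∫ r : Ioi (0 : ℝ),
        (fun r : ℝ => 1 / r ^ 2 * -(inner ℝ (G (x + r • (w : R3))) (w : R3) : ℝ)) r ∂rad :=
      integral_congr_ae (Eventually.of_forall fun r => hval w r)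
    rw [h1, integral_rad (fun r : ℝ => 1 / r ^ 2 * -(inner ℝ (G (x + r • (w : R3))) (w : R3) : ℝ)),
      ← neg_neg (u x), ← ray_repr hU hu hG hb hu0 x w hw, ← integral_neg]
    refine setIntegral_congr_fun measurableSet_Ioi fun r hr => ?_
    simp only [mem_Ioi] at hr
    have : r ^ 2 ≠ 0 := by positivity
    field_simp
  simp only [e2]
  rw [integral_const, sig_real_univ, smul_eq_mul]

end

end Vale.Agent.P370.H758
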