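import Vale.Agent.P363.H849.Space

/-! Linear isometries acting on the polynomial pairs of the hydrogenic shells. -/

namespace Vale.Agent.P370.H758

open MvPolynomial Vale.Agent.P363.H849

noncomputable section

/-- substitution `x ↦ A x` in a polynomial -/
def rot (A : R3 ≃ₗᵢ[ℝ] R3) : Poly →ₐ[ℝ] Poly :=
  aeval (fun i => ∑ j, C (A (e3 j) i) * X j)

theorem apply_coord (A : R3 ≃ₗᵢ[ℝ] R3) (x : R3) (i : Fin 3) :
    A x i = ∑ j, A (e3 j) i * x j := by
  have h : x = ∑ j, x j • e3 j := by
    ext k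
    simp [e3, Fin.sum_univ_three]
    fin_cases k <;> simp
  conv_lhs => rw [h]
  simp [map_sum, mul_comm]

theorem ev_rot (A : R3 ≃ₗᵢ[ℝ] R3) (p : Poly) (x : R3) : ev (rot A p) x = ev p (A x) := by
  induction p using MvPolynomial.induction_on with
  | C a => simp [rot, ev]
  | add p q hp hq => rw [map_add, ev_add, ev_add, hp, hq]
  | mul_X p i hp =>
    rw [map_mul, ev_mul, ev_mul, hp, ev_X]
    congr 1
    rw [rot, aeval_X, ev_sum, apply_coord]
    exact Finset.sum_congr rfl fun j _ => by rw [ev_mul, ev_C, ev_X]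

theorem pderiv_rot (A : R3 ≃ₗᵢ[ℝ] R3) (k : Fin 3) (p : Poly) :
    pderiv k (rot A p) = ∑ i, C (A (e3 k) i) * rot A (pderiv i p) := by
  induction p using MvPolynomial.induction_on with
  | C a => simp [rot]
  | add p q hp hq =>
    simp only [map_add, hp, hq, mul_add, Finset.sum_add_distrib]
  | mul_X p l hp =>
    have h1 : pderiv k (rot A (X l)) = C (A (e3 k) l) := by
      rw [rot, aeval_X, map_sum]
      rw [Finset.sum_eq_single k]
      · simp [pderiv_X_self]
      · intro b _ hb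
        rw [pderiv_C_mul, pderiv_X_of_ne hb, mul_zero]
      · simp
    rw [map_mul, Derivation.leibniz, hp, h1]
    simp only [Derivation.leibniz, map_add, smul_eq_mul, mul_add, Finset.sum_add_distrib,
      map_mul]
    congr 1
    · rw [Finset.sum_eq_single l]
      · simp only [pderiv_X_self, map_one, mul_one]; ring
      · intro b _ hb
        rw [pderiv_X_of_ne (Ne.symm hb), map_zero, mul_zero, mul_zero]
      · simp
    · rw [Finset.mul_sum]
      exact Finset.sum_congr rfl fun i _ => by ring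

theorem col_orth (A : R3 ≃ₗᵢ[ℝ] R3) (j l : Fin 3) :
    ∑ i, A (e3 j) i * A (e3 l) i = if j = l then 1 else 0 := by
  have h : inner ℝ (A (e3 l)) (A (e3 j)) = inner ℝ (e3 l) (e3 j) := A.inner_map_map _ _
  rw [PiLp.inner_apply] at h
  simp only [RCLike.inner_apply, conj_trivial] at h
  rw [h, inner_e3]
  simp [e3, eq_comm]

theorem symm_coord (A : R3 ≃ₗᵢ[ℝ] R3) (i k : Fin 3) : A.symm (e3 i) k = A (e3 k) i := by
  rw [← inner_e3 (A.symm (e3 i)) k, ← inner_e3 (A (e3 k)) i]
  rw [← A.inner_map_map (A.symm (e3 i)) (e3 k), A.apply_symm_apply]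
  exact real_inner_comm _ _

theorem row_orth (A : R3 ≃ₗᵢ[ℝ] R3) (i l : Fin 3) :
    ∑ k, A (e3 k) i * A (e3 k) l = if i = l then 1 else 0 := by
  have h := col_orth A.symm i l
  simpa only [symm_coord] using h

theorem lap_rot (A : R3 ≃ₗᵢ[ℝ] R3) (p : Poly) : lap (rot A p) = rot A (lap p) := by
  have h1 : lap (rot A p) = ∑ i, ∑ l, C (∑ k, A (e3 k) i * A (e3 k) l) * rot A (pderiv l (pderiv i p)) := by
    unfold lap
    simp only [pderiv_rot, map_sum, pderiv_C_mul, smul_eq_C_mul, map_mul, Finset.sum_mul,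
      Finset.mul_sum]
    rw [Finset.sum_comm]
    refine Finset.sum_congr rfl fun i _ => ?_
    rw [Finset.sum_comm]
    refine Finset.sum_congr rfl fun l _ => ?_
    refine Finset.sum_congr rfl fun k _ => ?_
    ring
  rw [h1]
  unfold lap
  rw [map_sum]
  refine Finset.sum_congr rfl fun i _ => ?_
  rw [Finset.sum_eq_single i]
  · rw [row_orth, if_pos rfl, map_one, one_mul]
  · intro l _ hl
    rw [row_orth, if_neg (Ne.symm hl), map_zero, zero_mul]
  · simp

theorem rot_X (A : R3 ≃ₗᵢ[ℝ] R3) (i : Fin 3) : rot A (X i) = ∑ j, C (A (e3 j) i) * X j := by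
  rw [rot, aeval_X]

theorem eul_rot (A : R3 ≃ₗᵢ[ℝ] R3) (p : Poly) : eul (rot A p) = rot A (eul p) := by
  unfold eul
  simp only [pderiv_rot, map_sum, map_mul, rot_X, Finset.mul_sum, Finset.sum_mul]
  rw [Finset.sum_comm]
  refine Finset.sum_congr rfl fun i _ => ?_
  refine Finset.sum_congr rfl fun k _ => ?_
  ring

theorem rot_rsq (A : R3 ≃ₗᵢ[ℝ] R3) : rot A rsq = rsq := by
  have h1 : rot A rsq = ∑ j, ∑ l, C (∑ i, A (e3 j) i * A (e3 l) i) * (X j * X l) := by
    unfold rsq
    simp only [map_sum, map_mul, rot_X, Finset.mul_sum, Finset.sum_mul]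
    rw [Finset.sum_comm]
    refine Finset.sum_congr rfl fun j _ => ?_
    rw [Finset.sum_comm]
    refine Finset.sum_congr rfl fun l _ => ?_
    refine Finset.sum_congr rfl fun i _ => ?_
    ring
  rw [h1]
  unfold rsq
  refine Finset.sum_congr rfl fun i _ => ?_
  rw [Finset.sum_eq_single i]
  · rw [col_orth, if_pos rfl, map_one, one_mul]
  · intro l _ hl
    rw [col_orth, if_neg (Ne.symm hl), map_zero, zero_mul]
  · simp

/-- the action on pairs -/
def rotP (A : R3 ≃ₗᵢ[ℝ] R3) (u : Poly × Poly) : Poly × Poly := (rot A u.1, rot A u.2)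

theorem Kop_rot (A : R3 ≃ₗᵢ[ℝ] R3) (κ : ℝ) (u : Poly × Poly) :
    Kop κ (rotP A u) = rotP A (Kop κ u) := by
  unfold Kop rotP
  simp only [map_sub, map_add, map_smul, map_mul, map_neg, lap_rot, eul_rot, rot_rsq]

theorem wv_rot (κ : ℝ) (A : R3 ≃ₗᵢ[ℝ] R3) (u : Poly × Poly) (x : R3) :
    wv κ (rotP A u) x = wv κ u (A x) := by
  simp only [wv, G, rotP, ev_rot, A.norm_map]

theorem rot_mem_Pn (A : R3 ≃ₗᵢ[ℝ] R3) {n : ℕ} {p : Poly} (hp : p ∈ Pn n) : rot A p ∈ Pn n := by
  have hX : ∀ (n : ℕ) (i : Fin 3) (q : Poly), q ∈ Pn n → rot A (X i) * q ∈ Pn (n + 1) := by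
    intro n i q hq
    rw [rot_X, Finset.sum_mul]
    refine (Pn _).sum_mem fun j _ => ?_
    rw [mul_assoc, ← smul_eq_C_mul]
    exact (Pn _).smul_mem _ (X_mul_mem j hq)
  have key : ∀ (d : ℕ) (m : Fin 3 →₀ ℕ), m.degree = d → rot A (monomial m 1) ∈ Pn (d + 1) := by
    intro d
    induction d with
    | zero =>
      intro m hm
      have : m = 0 := (Finsupp.degree_eq_zero_iff m).1 hm
      subst this
      have h1 : rot A (monomial 0 1) = monomial 0 1 := by
        rw [show (monomial 0 (1 : ℝ) : Poly) = 1 from rfl, map_one]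
      rw [h1]
      exact monomial_mem_Pn fun _ => by simp
    | succ d ih =>
      intro m hm
      have hne : ∃ i, m i ≠ 0 := by
        by_contra hcon
        push Not at hcon
        have : m = 0 := by ext i; exact hcon i
        rw [this, map_zero] at hm
        omega
      obtain ⟨i, hi⟩ := hne
      have h3 : m = (m - Finsupp.single i 1) + Finsupp.single i 1 := by
        rw [tsub_add_cancel_of_le]
        rw [Finsupp.single_le_iff]
        omega
      have h4 : m.degree = (m - Finsupp.single i 1).degree + 1 := by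
        conv_lhs => rw [h3]
        rw [map_add, Finsupp.degree_single]
      have h5 : (monomial m (1 : ℝ) : Poly) = X i * monomial (m - Finsupp.single i 1) 1 := by
        conv_lhs => rw [h3]
        rw [X, monomial_mul, one_mul, add_comm]
      rw [h5, map_mul]
      exact hX _ _ _ (ih _ (by omega))
  refine Pn_induction (C := fun p => rot A p ∈ Pn n) ?_ ?_ ?_ ?_ hp
  · rw [map_zero]; exact (Pn n).zero_mem
  · intro p q hp hq; rw [map_add]; exact (Pn n).add_mem hp hq
  · intro a p hp; rw [map_smul]; exact (Pn n).smul_mem a hp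
  · intro m hm
    exact Pn_mono (by omega) (key _ m rfl)

theorem rotP_mem_Un (A : R3 ≃ₗᵢ[ℝ] R3) {n : ℕ} {u : Poly × Poly} (hu : u ∈ Un n) :
    rotP A u ∈ Un n := ⟨rot_mem_Pn A hu.1, rot_mem_Pn A hu.2⟩

end

end Vale.Agent.P370.H758
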