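import Vale.Agent.P370.H758.Rot

/-! Weights of rotations about an axis on polynomials of bounded degree. -/

namespace Vale.Agent.P370.H758

open MvPolynomial Vale.Agent.P363.H849
open scoped ComplexConjugate

noncomputable section

/-- the complex coordinate `x₀ + i x₁` -/
def cw (x : R3) : ℂ := (x 0 : ℂ) + (x 1 : ℂ) * Complex.I

/-- the monomial functions in `w, w̄, z` -/
def mon (a b c : ℕ) (x : R3) : ℂ := cw x ^ a * conj (cw x) ^ b * (x 2 : ℂ) ^ c

/-- complex span of the monomial functions in `w, w̄, z` of degree at most `d` -/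
def Mz (d : ℕ) : Submodule ℂ (R3 → ℂ) :=
  Submodule.span ℂ {F | ∃ a b c, a + b + c ≤ d ∧ F = mon a b c}

theorem mon_mem {a b c d : ℕ} (h : a + b + c ≤ d) : mon a b c ∈ Mz d :=
  Submodule.subset_span ⟨a, b, c, h, rfl⟩

theorem Mz_mono {d e : ℕ} (h : d ≤ e) : Mz d ≤ Mz e := by
  apply Submodule.span_mono
  rintro F ⟨a, b, c, h1, rfl⟩
  exact ⟨a, b, c, h1.trans h, rfl⟩

theorem coord_mul_mem (i : Fin 3) {d : ℕ} {F : R3 → ℂ} (hF : F ∈ Mz d) :
    (fun x => (x i : ℂ) * F x) ∈ Mz (d + 1) := by
  induction hF using Submodule.span_induction with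
  | mem F hF =>
    obtain ⟨a, b, c, h, rfl⟩ := hF
    fin_cases i
    · have e : (fun x : R3 => ((x 0 : ℝ) : ℂ) * mon a b c x)
          = (1 / 2 : ℂ) • mon (a + 1) b c + (1 / 2 : ℂ) • mon a (b + 1) c := by
        funext x
        have h0 : ((x 0 : ℝ) : ℂ) = 1 / 2 * cw x + 1 / 2 * conj (cw x) := by
          simp only [cw, map_add, map_mul, Complex.conj_ofReal, Complex.conj_I]
          ring
        simp only [Pi.add_apply, Pi.smul_apply, smul_eq_mul, mon]
        rw [h0]
        ring
      show (fun x : R3 => ((x 0 : ℝ) : ℂ) * mon a b c x) ∈ _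
      rw [e]
      exact (Mz _).add_mem ((Mz _).smul_mem _ (mon_mem (by omega)))
        ((Mz _).smul_mem _ (mon_mem (by omega)))
    · have e : (fun x : R3 => ((x 1 : ℝ) : ℂ) * mon a b c x)
          = (-Complex.I / 2 : ℂ) • mon (a + 1) b c + (Complex.I / 2 : ℂ) • mon a (b + 1) c := by
        funext x
        have h0 : ((x 1 : ℝ) : ℂ) = -Complex.I / 2 * cw x + Complex.I / 2 * conj (cw x) := by
          simp only [cw, map_add, map_mul, Complex.conj_ofReal, Complex.conj_I]
          ring_nf
          rw [Complex.I_sq]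
          ring
        simp only [Pi.add_apply, Pi.smul_apply, smul_eq_mul, mon]
        rw [h0]
        ring
      show (fun x : R3 => ((x 1 : ℝ) : ℂ) * mon a b c x) ∈ _
      rw [e]
      exact (Mz _).add_mem ((Mz _).smul_mem _ (mon_mem (by omega)))
        ((Mz _).smul_mem _ (mon_mem (by omega)))
    · have e : (fun x : R3 => ((x 2 : ℝ) : ℂ) * mon a b c x) = mon a b (c + 1) := by
        funext x
        simp only [mon]
        ring
      show (fun x : R3 => ((x 2 : ℝ) : ℂ) * mon a b c x) ∈ _
      rw [e]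
      exact mon_mem (by omega)
  | zero =>
    have e : (fun x => (x i : ℂ) * (0 : R3 → ℂ) x) = 0 := by funext x; simp
    rw [e]
    exact (Mz (d + 1)).zero_mem
  | add F G _ _ hF hG =>
    have e : (fun x => (x i : ℂ) * (F + G) x)
        = (fun x => (x i : ℂ) * F x) + fun x => (x i : ℂ) * G x := by
      funext x; simp [mul_add]
    rw [e]
    exact (Mz _).add_mem hF hG
  | smul a F _ hF =>
    have e : (fun x => (x i : ℂ) * (a • F) x) = a • fun x => (x i : ℂ) * F x := by
      funext x; simp; ring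
    rw [e]
    exact (Mz _).smul_mem a hF

theorem ev_mem_Mz {d : ℕ} {p : Poly} (hp : p ∈ Pn (d + 1)) : (fun x => (ev p x : ℂ)) ∈ Mz d := by
  have key : ∀ (d : ℕ) (m : Fin 3 →₀ ℕ), m.degree = d →
      (fun x => (ev (monomial m 1) x : ℂ)) ∈ Mz d := by
    intro d
    induction d with
    | zero =>
      intro m hm
      have : m = 0 := (Finsupp.degree_eq_zero_iff m).1 hm
      subst this
      have e : (fun x => (ev (monomial 0 (1 : ℝ)) x : ℂ)) = mon 0 0 0 := by
        funext x
        rw [show (monomial 0 (1 : ℝ) : Poly) = 1 from rfl, ev_one]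
        simp [mon]
      rw [e]
      exact mon_mem (by omega)
    | succ d ih =>
      intro m hm
      have hne : ∃ i, m i ≠ 0 := by
        by_contra hcon
        push Not at hcon
        have : m = 0 := by ext i; exact hcon i
        rw [this, map_zero] at hm
        omega
      obtain ⟨i, hi⟩ := hne
      have h3 : m = (m - Finsupp.single i 1) + Finsupp.single i 1 := by
        rw [tsub_add_cancel_of_le]
        rw [Finsupp.single_le_iff]
        omega
      have h4 : m.degree = (m - Finsupp.single i 1).degree + 1 := by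
        conv_lhs => rw [h3]
        rw [map_add, Finsupp.degree_single]
      have h5 : (monomial m (1 : ℝ) : Poly) = X i * monomial (m - Finsupp.single i 1) 1 := by
        conv_lhs => rw [h3]
        rw [X, monomial_mul, one_mul, add_comm]
      have e : (fun x => (ev (monomial m (1 : ℝ)) x : ℂ))
          = fun x => (x i : ℂ) * (ev (monomial (m - Finsupp.single i 1) (1 : ℝ)) x : ℂ) := by
        funext x
        rw [h5, ev_mul, ev_X]
        push_cast
        rfl
      rw [e]
      exact coord_mul_mem i (ih _ (by omega))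
  refine Pn_induction (C := fun p => (fun x => (ev p x : ℂ)) ∈ Mz d) ?_ ?_ ?_ ?_ hp
  · have e : (fun x => (ev (0 : Poly) x : ℂ)) = 0 := by funext x; simp [ev_zero]
    rw [e]; exact (Mz d).zero_mem
  · intro p q hp hq
    have e : (fun x => (ev (p + q) x : ℂ)) = (fun x => (ev p x : ℂ)) + fun x => (ev q x : ℂ) := by
      funext x; simp [ev_add]
    rw [e]; exact (Mz d).add_mem hp hq
  · intro a p hp
    have e : (fun x => (ev (a • p) x : ℂ)) = (a : ℂ) • fun x => (ev p x : ℂ) := by
      funext x; simp [ev_smul]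
    rw [e]; exact (Mz d).smul_mem _ hp
  · intro m hm
    exact Mz_mono (by omega) (key _ m rfl)

/-! ### rotations -/

theorem exists_iso (b : Fin 3 → R3) (hb : Orthonormal ℝ b) :
    ∃ A : R3 ≃ₗᵢ[ℝ] R3, ∀ x i, A x i = inner ℝ (b i) x := by
  have hc : Fintype.card (Fin 3) = Module.finrank ℝ R3 := by simp
  let B : Module.Basis (Fin 3) ℝ R3 := basisOfOrthonormalOfCardEqFinrank hb hc
  have hB : ⇑B = b := coe_basisOfOrthonormalOfCardEqFinrank hb hc
  let O : OrthonormalBasis (Fin 3) ℝ R3 := B.toOrthonormalBasis (by rw [hB]; exact hb)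
  refine ⟨O.repr, fun x i => ?_⟩
  rw [OrthonormalBasis.repr_apply_apply]
  congr 1
  show (B.toOrthonormalBasis _) i = b i
  rw [Module.Basis.coe_toOrthonormalBasis, hB]

theorem exists_rotz (z : ℂ) (hz : ‖z‖ = 1) :
    ∃ A : R3 ≃ₗᵢ[ℝ] R3, ∀ x, cw (A x) = z * cw x ∧ A x 2 = x 2 := by
  have h1 : z.re ^ 2 + z.im ^ 2 = 1 := by
    have := Complex.sq_norm z
    rw [hz, Complex.normSq_apply] at this
    nlinarith
  obtain ⟨A, hA⟩ := exists_iso ![!₂[z.re, -z.im, 0], !₂[z.im, z.re, 0], !₂[0, 0, 1]] (by
    rw [orthonormal_iff_ite]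
    intro i j
    rw [PiLp.inner_apply, Fin.sum_univ_three]
    simp only [RCLike.inner_apply, conj_trivial]
    fin_cases i <;> fin_cases j <;> simp <;> nlinarith)
  refine ⟨A, fun x => ⟨?_, ?_⟩⟩
  · have h0 : A x 0 = z.re * x 0 - z.im * x 1 := by
      rw [hA]; simp [PiLp.inner_apply, Fin.sum_univ_three]; ring
    have h1 : A x 1 = z.im * x 0 + z.re * x 1 := by
      rw [hA]; simp [PiLp.inner_apply, Fin.sum_univ_three]; ring
    unfold cw
    rw [h0, h1]
    apply Complex.ext <;> simp <;> ring
  · rw [hA]; simp [PiLp.inner_apply, Fin.sum_univ_three]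

/-- Existence of an isometry taking an orthonormal pair to the first two coordinates. -/
theorem exists_frame (u v : R3) (hu : ‖u‖ = 1) (hv : ‖v‖ = 1) (huv : inner ℝ u v = 0) :
    ∃ A : R3 ≃ₗᵢ[ℝ] R3, ∀ x, A x 0 = inner ℝ u x ∧ A x 1 = inner ℝ v x := by
  have hv' : Orthonormal ℝ (Set.domRestrict ({0, 1} : Set (Fin 3)) ![u, v, 0]) := by
    constructor
    · rintro ⟨i, hi⟩
      rcases hi with rfl | hi
      · exact hu
      · rw [Set.mem_singleton_iff] at hi
        subst hi
        exact hv
    · rintro ⟨i, hi⟩ ⟨j, hj⟩ hij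
      have hvu : inner ℝ v u = 0 := by rw [real_inner_comm]; exact huv
      rcases hi with rfl | hi <;> rcases hj with rfl | hj
      · exact absurd rfl hij
      · rw [Set.mem_singleton_iff] at hj; subst hj; exact huv
      · rw [Set.mem_singleton_iff] at hi; subst hi; exact hvu
      · rw [Set.mem_singleton_iff] at hi hj; subst hi; subst hj; exact absurd rfl hij
  obtain ⟨b, hb⟩ := hv'.exists_orthonormalBasis_extension_of_card_eq (by simp)
  refine ⟨b.repr, fun x => ⟨?_, ?_⟩⟩
  · rw [OrthonormalBasis.repr_apply_apply, hb 0 (by simp)]; simp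
  · rw [OrthonormalBasis.repr_apply_apply, hb 1 (by simp)]; simp

end

end Vale.Agent.P370.H758
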